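import Crest.Agent.N49.Tw.Mas0
import Crest.Agent.N49.Tw.Exp
import Crest.Agent.N49.Sp.Sp

/-!
# Row 49 (helper20): the mass of a level set of a linear form on level one
-/

set_option autoImplicit false

open Matrix Finset

noncomputable section

namespace Crest.Agent.N49.En

open Po Tw

section raw
variable {ι : Type} [Fintype ι] [DecidableEq ι] {lev : ι → ℕ} {M : Matrix ι ι ℝ}
  {Θ : (ι → ℤ) → ι → ℝ}

theorem raw_step (hT : Rw.Tri lev Θ) (hB : Rw.Blk lev M) (hM : M.PosDef) (l : ℕ)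
    {g : (Rw.Lo lev (l + 1) → ℤ) → ℝ} {g' : (Rw.Lo lev l → ℤ) → ℝ} (g0 : ∀ y, 0 ≤ g y)
    (g1 : ∀ y, g y ≤ 1) (h0 : ∀ y, 0 ≤ g' y) (h1 : ∀ y, g' y ≤ 1) {c : ℝ}
    (h : ∀ y, ∑' n : Rw.At lev l → ℤ, gs (Rw.blk lev M l) (zc n - Rw.cen lev Θ l y) *
      g (Rw.sp lev l (y, n)) ≤ c * g' y) :
    ∑' y, Rw.wl lev M Θ (l + 1) y * g y ≤ c * ∑' y, Rw.wl lev M Θ l y * g' y := by
  have s := Rw.summable_wl hT hB hM l
  have p := fun y => (Rw.wl_pos (lev := lev) (M := M) (Θ := Θ) l y).le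
  have s1 : Summable fun x : (Rw.Lo lev l → ℤ) × (Rw.At lev l → ℤ) => Rw.wl lev M Θ l x.1 *
      gs (Rw.blk lev M l) (zc x.2 - Rw.cen lev Θ l x.1) * g (Rw.sp lev l x) :=
    .of_nonneg_of_le (fun x => mul_nonneg (mul_nonneg (p _) (gs_pos _ _).le) (g0 _))
      (fun x => mul_le_of_le_one_right (mul_nonneg (p _) (gs_pos _ _).le) (g1 _))
      (summable_ext (Rw.blk_pd hM l) p s _)
  have s2 : Summable fun y => Rw.wl lev M Θ l y * g' y :=
    .of_nonneg_of_le (fun y => mul_nonneg (p _) (h0 _))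
      (fun y => mul_le_of_le_one_right (p _) (h1 _)) s
  rw [Rw.tsum_succ hT hB l fun w y => w * g y, s1.tsum_prod, ← tsum_mul_left]
  refine s1.prod.tsum_le_tsum (fun y => ?_) (s2.mul_left c)
  simp only [mul_assoc, tsum_mul_left]
  rw [mul_left_comm]
  exact mul_le_mul_of_nonneg_left (h y) (p y)

omit [DecidableEq ι] in
theorem sum_lev1 {ψ : ι → ℤ} (hψ : ∀ i, ψ i ≠ 0 → lev i = 1) (y : ι → ℤ) :
    ∑ i : Rw.At lev 1, ψ i * y i = ∑ i, ψ i * y i := by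
  rw [← sum_subtype (univ.filter fun i => lev i = 1) (by simp) fun i => ψ i * y i, sum_filter]
  refine sum_congr rfl fun i _ => ?_
  split_ifs with k
  · rfl
  · rw [not_not.1 (mt (hψ i) k), zero_mul]

/-- the kernel of a form on level one -/
def kr1 (lev : ι → ℕ) (ψ : ι → ℤ) : Set (Rw.At lev 1 → ℤ) := {n | (fun i => ψ i.1) ⬝ᵥ n = 0}

theorem raw_cnt (hT : Rw.Tri lev Θ) (hB : Rw.Blk lev M) (hM : M.PosDef) {ψ : ι → ℤ}
    (hψ : ∀ i, ψ i ≠ 0 → lev i = 1) (a : ℤ) (l : ℕ) :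
    ∑' y, Rw.wl lev M Θ (l + 2) y * (if ψ ⬝ᵥ Rw.ext lev (l + 2) y = a then 1 else 0) ≤
      Sp.gk (Rw.blk lev M 1) (kr1 lev ψ) * ∏ j ∈ range (l + 2), th (Rw.blk lev M j) 0 := by
  have z : ∀ p : Prop, ∀ [Decidable p], (0 : ℝ) ≤ if p then 1 else 0 := fun p _ => by
    split_ifs <;> norm_num
  have o : ∀ p : Prop, ∀ [Decidable p], (if p then 1 else 0 : ℝ) ≤ 1 := fun p _ => by
    split_ifs <;> norm_num
  induction l with
  | zero =>
    refine (raw_step hT hB hM 1 (g' := fun _ => 1) (fun _ => z _) (fun _ => o _)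
      (fun _ => zero_le_one) (fun _ => le_rfl) (c := Sp.gk (Rw.blk lev M 1) (kr1 lev ψ) *
        th (Rw.blk lev M 1) 0) fun y => ?_).trans ?_
    · let π : (Rw.At lev 1 → ℤ) →+ ℤ := AddMonoidHom.mk' (fun n => (fun i => ψ i.1) ⬝ᵥ n)
        fun _ _ => dotProduct_add ..
      rw [mul_one]
      refine le_trans (le_of_eq (tsum_congr fun n => ?_))
        (Sp.ks_coset' (Rw.blk_pd hM 1) (Rw.cen lev Θ 1 y) π a)
      have : ψ ⬝ᵥ Rw.ext lev (1 + 1) (Rw.sp lev 1 (y, n)) = π n := by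
        rw [dotProduct, ← sum_lev1 hψ]
        exact sum_congr rfl fun i _ => by rw [Rw.ext_sp']
      rw [this, Set.indicator_apply]
      simp
    · simp only [mul_one]
      rw [prod_range_succ, mul_assoc, mul_comm (th _ _)]
      exact mul_le_mul_of_nonneg_left (mul_le_mul_of_nonneg_right (Rw.Zl_le hT hB hM 1)
        (th_nonneg _ _)) (Sp.gk_nonneg _ _)
  | succ l ih =>
    refine (raw_step hT hB hM (l + 2) (g' := fun y => if ψ ⬝ᵥ Rw.ext lev (l + 2) y = a then 1 else 0)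
      (fun _ => z _) (fun _ => o _) (fun _ => z _) (fun _ => o _) (c := th (Rw.blk lev M (l + 2)) 0) fun y => ?_).trans ?_
    · have : ∀ n, ψ ⬝ᵥ Rw.ext lev (l + 2 + 1) (Rw.sp lev (l + 2) (y, n)) =
          ψ ⬝ᵥ Rw.ext lev (l + 2) y := fun n => sum_congr rfl fun i _ => by
        by_cases k : ψ i = 0
        · rw [k, zero_mul, zero_mul]
        · rw [Rw.ext_sp _ (by rw [hψ i k]; omega)]
      simp only [this, tsum_mul_right]
      exact mul_le_mul_of_nonneg_right (th_le (Rw.blk_pd hM _) _) (z _)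
    · rw [show l + 1 + 2 = l + 2 + 1 from rfl, prod_range_succ, ← mul_assoc, mul_comm (th _ _)]
      exact mul_le_mul_of_nonneg_right ih (th_nonneg _ _)

end raw

variable {σ : Type}

/-- the centred mass of the kernel of `ψ` on level one -/
def gk1 (T : TS σ) (ψ : T.C → ℤ) : ℝ := Sp.gk (Rw.blk T.lev T.D⁻¹ 1) (kr1 T.lev ψ)

/-- **level sets** -/
theorem cnt {T : TS σ} (h : T.Tri) {s : ℕ} (hs : ∀ c, T.lev c ≤ s) {ψ : T.C → ℤ}
    (hψ : ∀ c, ψ c ≠ 0 → T.lev c = 1) (a : ℤ) :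
    T.S (fun y => if ψ ⬝ᵥ y = a then 1 else 0) ≤
      gk1 T ψ * (∏ l ∈ range (s + 2), T.ct l) * T.Zc := by
  have hs' : ∀ c, T.lev c < s + 2 := fun c => by have := hs c; omega
  have := raw_cnt h.rw_tri h.blk_Di h.pd_Di hψ a s
  rw [← Rw.tsum_wt hs' fun w y => w * if ψ ⬝ᵥ y = a then (1 : ℝ) else 0, ← h.wt_rw] at this
  refine this.trans_eq ?_
  simp only [TS.th_blk h, TS.pt0_eq h]
  rw [TS.Zc_eq_prod h hs', prod_mul_distrib, gk1]
  ring

end Crest.Agent.N49.En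

end
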