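import Crest.Agent.N49.En.Mono
import Crest.Agent.N49.En.Cnt
import Crest.Agent.N49.Gb.Ln
import Crest.Agent.N49.Br.L0
import Crest.Agent.N49.Top.St
import Crest.Agent.N49.Tw.Tw

/-!
# Row 49 (helper20): both ends of the chain (definitions and leaves)
-/

set_option autoImplicit false

open Matrix Finset

noncomputable section

namespace Crest.Agent.N49.En

open Po Tw

/-- what the first step uses of regularity -/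
structure Sm (T : TS Unit) (s n : ℕ) (a η : ℝ) : Prop where
  mas : ∀ (τ : Type) (S : Sh Unit τ), S.Sz n a → (T.sh S).Mas η
  ptm : ∀ (τ : Type) (S : Sh Unit τ) (χ : S.W → ℤ), S.Sz n a → S.Pt s χ → (∀ w, |χ w| ≤ n) →
    (∀ j ∈ Icc 1 s, ∃ w, S.dg w = j ∧ χ w = 1) → (T.sh S).Push
      (T.shr fun l => √(qf S.K fun w => if S.dg w = l then (χ w : ℝ) else 0)) (T.pw S χ) η

/-- the mass of the letters: a base point and directions -/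
def aE (k : ℕ) : Option (Fin k) → ℤ := fun o => o.elim 1 fun _ => 0
/-- the variances -/
def aV (k : ℕ) (lam : ℝ) (μ : Option (Fin k) →₀ ℕ) : ℝ := lam ^ (2 * (μ.degree - μ none))
/-- the points of the progression -/
def aT (k : ℕ) (i o : Option (Fin k)) : ℤ := o.elim 1 fun j => (j : ℤ) - (i.elim 0 Fin.val : ℕ)
/-- the faces -/
def aA (k : ℕ) : Finset (Option (Fin k)) := univ.erase none
/-- the law of the progression -/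
def aL (T : TS Unit) (k s : ℕ) (lam : ℝ) : TS (Option (Fin k)) :=
  T.shape (fun _ => ()) (full _ s) (aE k) (dk (aV k lam))
/-- its points -/
def aP (T : TS Unit) (k s : ℕ) (lam : ℝ) (i : Option (Fin k)) (y : (aL T k s lam).C → ℤ) :
    T.C → ℤ := T.pt (fun _ => ()) (full _ s) y (aT k i)
open Classical in
/-- the normalised indicator -/
def fA (V : Ctr) (A : Set ℤ) (α : ℝ) (y : V.T.C → ℤ) : ℝ := if V.x y ∈ A then α⁻¹ else 0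
/-- the grid of the face `i` -/
def gS (k s q : ℕ) (i : Option (Fin k)) (v : (Option (Fin k) × Fin (q + 2) →₀ ℕ) → ℝ) :
    Sh Unit (Option (Fin k) × Fin (q + 2)) :=
  Sh.mono (fun _ => ()) (Gb.GW (full _ s) (Gb.Gd i ((aA k).erase i))) (aE k ∘ Prod.fst) (dk v)

/-- regularity gives `Sm` -/
def SMOF : Prop := ∀ (s C n : ℕ) (a η : ℝ) (T : TS Unit), MAST s C → PTMT s C → T.Tri →
  (∀ F, T.lev F ≤ s) → 0 < η → η ≤ 1 → T.RgS T.lev s C n a η → Sm T s n a η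

/-- the means -/
def MEAN : Prop := ∀ (k s n : ℕ) (T : TS Unit) (lam a τ η B : ℝ) (f : (T.C → ℤ) → ℝ)
  (i : Option (Fin k)), 1 ≤ s → T.Tri → (∀ F, T.lev F ≤ s) → Sm T s n a τ → (k + 2) ^ s ≤ n → s + 1 ≤ n →
  0 < a → a ≤ lam ^ (2 * s) → 0 < lam → lam ≤ 1 → (∀ y, 0 ≤ f y) → (∀ y, f y ≤ B) → 0 ≤ τ →
  0 ≤ η → (1 + lam ^ 2 * k ^ 3) ^ (s * Fintype.card T.C) ≤ 1 + η →
  T.E f * (1 - 2 * τ - η) - B * τ ≤ (aL T k s lam).E fun y => f (aP T k s lam i y)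

/-- the count: only constant progressions -/
def CNT : Prop := ∀ (k s n : ℕ) (V : Ctr) (A : Finset ℕ) (lam α τ : ℝ), 1 ≤ k → 1 ≤ s → V.Ok s →
  Top.Free k A → 0 < α → 0 < lam → lam ≤ 1 → (k + 2) ^ s ≤ n → τ ≤ 1 / 2 →
  (aL V.T k s lam).Mas τ →
  (aL V.T k s lam).E (fun y => ∏ i ∈ aA k, fA V (Top.zs A) α (aP V.T k s lam i y)) ≤
    2 * α⁻¹ ^ k * V.g1 *
      (lam⁻¹ ^ (s * Fintype.card V.T.C) * ∏ l ∈ Icc 1 s, V.T.ct l) ^ (n + 2)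

/-- **the first step**: some face has a large grid count -/
def L0 : Prop := ∀ s : ℕ, 1 ≤ s → ∃ (c0 η : ℝ) (a j : ℕ), 1 < c0 ∧ c0 ≤ 2 ∧ 0 < η ∧ η ≤ 1 ∧
  ∀ (m q n : ℕ) (V : Ctr) (A : Finset ℕ) (lam α τ b : ℝ), Even q → j * m ≤ q → V.Ok s →
  Top.Free (s + 2) A → 1 / 2 ^ m ≤ α → (1 - η) * α ≤ V.den (Top.zs A) → 0 < lam → lam ≤ 1 →
  (1 + lam ^ 2 * (s + 2) ^ 3) ^ (s * Fintype.card V.T.C) ≤ 1 + η →
  0 < τ → τ ≤ 1 / 2 ^ (a + m + 12 * (q + 2) ^ (s + 3)) → ((s + 3) * (q + 2) + 1) ^ s ≤ n →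
  0 < b → b ≤ lam ^ (2 * s) → Sm V.T s n b τ →
  4 * 2 ^ (m * (s + 2)) * V.g1 *
    (lam⁻¹ ^ (s * Fintype.card V.T.C) * ∏ l ∈ Icc 1 s, V.T.ct l) ^ (n + 2) < 1 →
  ∃ i : Fin (s + 2), c0 ^ (q + 2) ^ (s + 1) <
    (V.T.sh (gS (s + 2) s q i fun ν => aV _ lam (ν.mapDomain Prod.fst))).E fun y =>
      ∏ e ∈ L.P q ((aA (s + 2)).erase i),
        fA V (Top.zs A) α (V.T.pw _ (chi _ (Gb.tv (aT _ i) e)) y)

/-- **dilations are removed by residue classes** -/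
def RESW : Prop := ∀ (τ : Type) [DecidableEq τ] [Fintype τ] (T : TS Unit) (W : Finset (τ →₀ ℕ))
  (ε t : τ → ℤ) (v : (τ →₀ ℕ) → ℝ) (n : ℕ) (g : (T.Cw (Sh.mono (fun _ => ()) W ε (dk v)) → ℤ) → ℝ),
  T.Tri → Dn W → (∀ μ ∈ W, 0 < v μ) → 0 < n → (∀ a, t a ∣ n) → (∀ a, ε a ≠ 0 → t a = 1) → Bb g →
  let S := Sh.mono (fun _ => ()) W ε (dk v)
  let S' := Sh.mono (fun _ => ()) W ε
    (dk fun μ => v μ * ((μ.prod fun a j => (t a : ℝ) ^ j) / (n : ℝ) ^ μ.degree) ^ 2)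
  ∃ (Ψ : T.Twd S') (r : T.Cw S → ℤ) (em : (T.Cw S' → ℤ) → T.Cw S → ℤ), T.Adm S' T.lev Ψ ∧
    (T.sh S).N g ≤ (T.tw S' Ψ).N (fun y => g (em y)) ∧
    ∀ y x F, T.pw S (chi S (t * x)) (em y) F =
      T.pw S (chi S (t * x)) r F + n ^ T.lev F * T.pw S' (chi S' x) y F

/-- **the end**: one block is an exact product of point towers -/
def END0 : Prop := ∀ (s M C n : ℕ) (a η L : ℝ) (T : TS Unit) (st : T.C → ℕ) (q : Fin 1 → ℕ)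
  (v : ℕ → Br.Pt (Fin 1) → ℝ) (Ψ : T.Twd (Br.tw s (Br.grid q) v)) (f : (T.C → ℤ) → ℝ),
  MAST M C → T.Hy (Br.tw s (Br.grid q) v) st Ψ M C n a η → 1 ≤ s → (∀ F, T.lev F ≤ s) → 1 ≤ q 0 →
  (∀ j w, a ≤ v j w ∧ v j w ≤ 1) → 0 < a → (∀ y, 0 ≤ f y) → Bb f → 0 ≤ L →
  L ^ #(Br.pts q) ≤ (T.tw _ Ψ).E (fun y => ∏ ω ∈ Br.pts q, f (T.pw _ (Br.chi v ω) y)) →
  ∃ ω ∈ Br.pts q, (T.ev _ Ψ (Br.chi v ω)).Tri ∧ L ≤ (T.ev _ Ψ (Br.chi v ω)).E f ∧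
    (T.ev _ Ψ (Br.chi v ω)).Mas η ∧
    (∀ l, (T.ev _ Ψ (Br.chi v ω)).ct l ≤ (√a)⁻¹ ^ T.R l * T.ct l) ∧
    ∀ π, (T.ev _ Ψ (Br.chi v ω)).g1 π ≤ (√a)⁻¹ ^ T.R 1 * T.g1 π

end Crest.Agent.N49.En

end
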