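import Crest.Agent.N49.Tw.Sa
import Crest.Agent.N49.Tw.Exp

/-!
# Row 49 (helper20): the monomial shapes of `Tw/Defs` are the shapes `Sh.mono`
-/

set_option autoImplicit false

open Matrix MvPolynomial Finset

noncomputable section

namespace Crest.Agent.N49.En

open Po Tw

theorem gs_rx {a b : Type} [Fintype a] [DecidableEq a] [Fintype b] [DecidableEq b] (e : a ≃ b)
    (K : Matrix b b ℝ) (x : b → ℝ) : gs (K.submatrix e e)⁻¹ (x ∘ e) = gs K⁻¹ x := by
  rw [inv_submatrix_equiv, gs, gs, qf, qf, submatrix_mulVec_equiv, Function.comp_assoc,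
    e.self_comp_symm, Function.comp_id, comp_equiv_dotProduct_comp_equiv]

theorem dt_rx {a b : Type} [Fintype a] [DecidableEq a] [Fintype b] [DecidableEq b] (e : a ≃ b)
    (K : Matrix b b ℝ) : dt (K.submatrix e e)⁻¹ = dt K⁻¹ := by
  rw [inv_submatrix_equiv, dt, dt, det_submatrix_equiv_self]

/-- transport of the Master estimate -/
theorem mas_of {σ σ' : Type} {T : TS σ} {T' : TS σ'} (h : T.Z = T'.Z) (h' : T.Zc = T'.Zc) {η : ℝ}
    (k : T'.Mas η) : T.Mas η := by unfold TS.Mas at *; rwa [h, h']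

variable {σ τ : Type} [DecidableEq σ] [DecidableEq τ] [Fintype τ] {T : TS σ} {col : τ → σ}
  {W : Finset (τ →₀ ℕ)} {ε : τ → ℤ} {Kw : (τ →₀ ℕ) → (τ →₀ ℕ) → ℝ}

variable (col W ε Kw) in
/-- the coordinates -/
def mE (h : T.Tri) : T.Cw (Sh.mono col W ε Kw) ≃ T.Wd col W where
  toFun p := ⟨(p.1.1, ⟨p.1.2.1, mem_of_mem_erase p.1.2.2⟩), p.2⟩
  invFun p := ⟨(p.1.1, ⟨p.1.2.1, mem_erase.2 ⟨fun e => h.ne p.1.1 (by
    rw [← p.2, e, Finsupp.mapDomain_zero]), p.1.2.2⟩⟩), p.2⟩
  left_inv _ := rfl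
  right_inv _ := rfl

variable (col W ε Kw) in
/-- the configurations -/
def mC (h : T.Tri) : (T.Wd col W → ℤ) ≃ (T.Cw (Sh.mono col W ε Kw) → ℤ) :=
  (mE col W ε Kw h).symm.arrowCongr (Equiv.refl ℤ)

/-- the values of the words at a point -/
def chi (S : Sh σ τ) (t : τ → ℤ) : S.W → ℤ := fun w => (S.ty w).prod fun a n => t a ^ n

/-- words as monomials -/
def rho (S : Sh σ τ) (R : Type) [CommRing R] [Algebra ℝ R] :
    MvPolynomial S.W R →ₐ[ℝ] MvPolynomial τ R :=
  (aeval (R := R) fun w => monomial (S.ty w) 1).restrictScalars ℝ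

omit [DecidableEq σ] [DecidableEq τ] [Fintype τ] in
theorem rho_mon (S : Sh σ τ) {R : Type} [CommRing R] [Algebra ℝ R] (m : S.W →₀ ℕ) (a : R) :
    rho S R (monomial m a) = monomial (Finsupp.weight S.ty m) a := by
  simp only [rho, AlgHom.restrictScalars_apply, aeval_monomial, monomial_pow, one_pow,
    Finsupp.prod, ← monomial_sum_one, algebraMap_eq, C_mul_monomial, mul_one,
    Finsupp.weight_apply, Finsupp.sum]

omit [DecidableEq σ] [DecidableEq τ] [Fintype τ] in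
theorem rho_X (S : Sh σ τ) {R : Type} [CommRing R] [Algebra ℝ R] (w : S.W) :
    rho S R (X w) = monomial (S.ty w) 1 := by rw [X, rho_mon, Finsupp.weight_single, one_smul]

omit [DecidableEq σ] [Fintype τ] in
theorem cf_rho {R : Type} [CommRing R] [Algebra ℝ R] (w : (Sh.mono col W ε Kw).W)
    (P : MvPolynomial (Sh.mono col W ε Kw).W R) : (Sh.mono col W ε Kw).cf R w P =
      coeff ((Sh.mono col W ε Kw).ty w) (rho (Sh.mono col W ε Kw) R P) := by
  induction P using MvPolynomial.induction_on' with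
  | add p q a b => rw [map_add, map_add, coeff_add, a, b]
  | monomial m a =>
    rw [rho_mon, coeff_monomial, Sh.cf_monomial]
    change a * ((if _ then 1 else 0 : ℤ) : R) = _
    simp only [Int.cast_ite, Int.cast_one, Int.cast_zero, mul_ite, mul_one, mul_zero]
    rfl

omit [Fintype τ] in
theorem rho_Yw (h : T.Tri) {R : Type} [CommRing R] [Algebra ℝ R] (y : T.Wd col W → R) (F : T.C) :
    rho _ R (T.Yw (Sh.mono col W ε Kw) (y ∘ mE col W ε Kw h) F) = T.Yp col W y F := by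
  rw [TS.Yw, TS.Yp, map_sum, sum_filter, sum_filter, ← (mE col W ε Kw h).sum_comp]
  refine sum_congr rfl fun p _ => if_congr Iff.rfl ?_ rfl
  rw [X, C_mul_monomial, mul_one, rho_mon, Finsupp.weight_single, one_smul]
  rfl

omit [DecidableEq σ] in
theorem rho_eps {R : Type} [CommRing R] [Algebra ℝ R] {μ : τ →₀ ℕ} (hμ : μ ∈ W) :
    coeff μ (rho _ R ((Sh.mono col W ε Kw).el (Sh.mono col W ε Kw).ε)) =
      coeff μ (∑ a, ε a • X a : MvPolynomial τ R) := by
  have b : ∀ ν : τ →₀ ℕ, ((ν.sum fun a _ => if ν = Finsupp.single a 1 then ε a else 0 : ℤ) : R) =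
      coeff ν (∑ a, ε a • X a : MvPolynomial τ R) := fun ν => by
    rw [Finsupp.sum, sum_subset (subset_univ _) fun x _ k => if_neg fun e => k (by simp [e]),
      coeff_sum, Int.cast_sum]
    refine sum_congr rfl fun a _ => ?_
    rw [coeff_smul, coeff_X]
    by_cases e : ν = Finsupp.single a 1 <;> simp [e, eq_comm]
  rw [← b, Sh.el, map_sum, coeff_sum]
  simp only [map_zsmul, rho_X, coeff_smul, coeff_monomial]
  by_cases z : μ = 0
  · rw [sum_eq_zero fun w _ => by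
      rw [if_neg (z ▸ ne_of_mem_erase (Subtype.prop w)), smul_zero]]
    simp [z]
  · refine (sum_eq_single (ι := (Sh.mono col W ε Kw).W) ⟨μ, mem_erase.2 ⟨z, hμ⟩⟩
      (fun w _ n => (congrArg _ (if_neg fun e => n (Subtype.ext e))).trans (smul_zero _))
      fun k => absurd (mem_univ _) k).trans ?_
    exact (congrArg _ (if_pos rfl)).trans (zsmul_one _)

theorem u_mono (h : T.Tri) (hW : Dn W) (y : T.Wd col W → ℝ) (p : T.Cw (Sh.mono col W ε Kw)) :
    (T.sh (Sh.mono col W ε Kw)).u (y ∘ mE col W ε Kw h) p =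
      (T.shape col W ε Kw).u y (mE col W ε Kw h p) := by
  refine (TS.sh_u _ p).trans (Eq.trans ?_ (TS.shape_u y (mE col W ε Kw h p)).symm)
  rw [cf_rho, T.hz_map]
  refine (congrArg (fun z => coeff _ (T.hz _ z _)) (funext (rho_Yw h y))).trans ?_
  have : Ideal.Quotient.mkₐ ℝ (idl ℝ hW) (T.hz (rho _ ℝ ((Sh.mono col W ε Kw).el
      (Sh.mono col W ε Kw).ε)) (T.Yp col W y) p.1.1) =
      Ideal.Quotient.mkₐ ℝ (idl ℝ hW) (T.hz (∑ a, ε a • X a) (T.Yp col W y) p.1.1) := by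
    rw [T.hz_map, T.hz_map]
    refine congrArg (fun z => T.hz z _ p.1.1) (Ideal.Quotient.eq.2 fun ν hν => ?_)
    rw [coeff_sub, rho_eps hν, sub_self]
  have := Ideal.Quotient.eq.1 this _ (mem_of_mem_erase (Subtype.prop p.1.2))
  rwa [coeff_sub, sub_eq_zero] at this

theorem eqv_mono (h : T.Tri) (hW : Dn W) :
    (T.shape col W ε Kw).Eqv (T.sh (Sh.mono col W ε Kw)) (mC col W ε Kw h) := fun y => by
  have a : (T.sh (Sh.mono col W ε Kw)).u (zc (mC col W ε Kw h y)) =
      (T.shape col W ε Kw).u (zc y) ∘ mE col W ε Kw h := funext (u_mono h hW (zc y))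
  have b : (T.sh (Sh.mono col W ε Kw)).K =
      (T.shape col W ε Kw).K.submatrix (mE col W ε Kw h) (mE col W ε Kw h) := rfl
  exact (congrArg₂ (fun K x => gs K⁻¹ x) b a).trans (gs_rx (mE col W ε Kw h) _ _)

theorem Zc_mono (h : T.Cl) (o : (Sh.mono col W ε Kw).Ok) :
    (T.shape col W ε Kw).Zc = (T.sh (Sh.mono col W ε Kw)).Zc := by
  rw [TS.Zc, TS.Zc, TS.shape_D h, TS.sh_D h o]
  exact (dt_rx (mE col W ε Kw h.1) _).symm

theorem mas_mono (h : T.Cl) (hW : Dn W) (o : (Sh.mono col W ε Kw).Ok) {η : ℝ}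
    (k : (T.sh (Sh.mono col W ε Kw)).Mas η) : (T.shape col W ε Kw).Mas η :=
  mas_of (eqv_mono h.1 hW).Z (Zc_mono h o) k

omit [Fintype τ] in
theorem pw_mono (h : T.Tri) (y : T.Wd col W → ℤ) (t : τ → ℤ) :
    T.pw (Sh.mono col W ε Kw) (chi _ t) (mC col W ε Kw h y) = T.pt col W y t := by
  funext F
  unfold TS.pw TS.pt
  rw [TS.Yp, map_sum, sum_filter, sum_filter, ← (mE col W ε Kw h).sum_comp]
  refine sum_congr rfl fun p _ => if_congr Iff.rfl ?_ rfl
  rw [eval_monomial, mul_comm]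
  rfl

end Crest.Agent.N49.En

end
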