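import Crest.Agent.N49.En.Defs
import Crest.Agent.N49.Sp.Sp2
import Crest.Agent.N49.Tw.Ctl
import Crest.Agent.N49.Rf.G1

/-!
# Row 49 (helper20): the count of progressions
-/

set_option autoImplicit false

open Matrix Finset

noncomputable section

namespace Crest.Agent.N49.En

open Po Tw

theorem gk_blk {J e : Type} [Fintype J] [DecidableEq J] [Fintype e] [DecidableEq e]
    {M : Matrix J J ℝ} (hM : M.PosDef) {f : e → J} (hf : Function.Injective f)
    (hb : ∀ i j, j ∉ Set.range f → M (f i) j = 0) (ψ : J → ℤ) :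
    Sp.gk M⁻¹ {n | ψ ⬝ᵥ n = 0} ≤
      th (M.submatrix f f) 0 * Sp.gk (M.submatrix f f)⁻¹ {n | (ψ ∘ f) ⬝ᵥ n = 0} := by
  classical
  let g : {j // j ∉ Set.range f} ⊕ e ≃ J := Equiv.ofBijective (Sum.elim Subtype.val f) ⟨by
    rintro (a | a) (b | b) h
    · exact congrArg _ (Subtype.ext h)
    · exact absurd ⟨b, h.symm⟩ a.2
    · exact absurd ⟨a, h⟩ b.2
    · exact congrArg _ (hf h), fun j => by
    by_cases k : j ∈ Set.range f
    · obtain ⟨i, rfl⟩ := k
      exact ⟨.inr i, rfl⟩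
    · exact ⟨.inl ⟨j, k⟩, rfl⟩⟩
  have a : (M⁻¹.submatrix g g).toBlocks₂₂ = (M.submatrix f f)⁻¹ := by
    refine (inv_eq_right_inv ?_).symm
    ext i i'
    rw [← submatrix_one f hf, ← mul_nonsing_inv _ hM.det_pos.ne'.isUnit, submatrix_apply,
      mul_apply, mul_apply, ← g.sum_comp, Fintype.sum_sum_type,
      sum_eq_zero fun (j : {j // j ∉ Set.range f}) _ => by
        rw [show g (.inl j) = j.1 from rfl, hb i _ j.2, zero_mul], zero_add]
    rfl
  have b := Sp.gk_cond (hM.inv.submatrix g.injective)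
    (AddMonoidHom.mk' (fun n : e → ℤ => (ψ ∘ f) ⬝ᵥ n) fun _ _ => dotProduct_add ..)
    fun z => -((fun j : {j // j ∉ Set.range f} => ψ j.1) ⬝ᵥ z)
  rw [a, La.ct, inv_inv' (hM.submatrix hf)] at b
  refine le_of_eq_of_le ?_ b
  rw [← Sp.gk_reindex M⁻¹ g]
  refine congrArg _ (Set.ext fun n => ?_)
  simp only [Set.mem_ofPred_eq, AddMonoidHom.mk'_apply, dotProduct]
  rw [← g.sum_comp, Fintype.sum_sum_type, add_comm, add_eq_zero_iff_eq_neg]
  simp only [Function.comp_apply, g.symm_apply_apply]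
  rfl

theorem mem_full {τ : Type} [Fintype τ] [DecidableEq τ] {s : ℕ} {μ : τ →₀ ℕ} :
    μ ∈ full τ s ↔ μ.degree ≤ s := by
  simp only [full, mem_biUnion, mem_range, mem_finsuppAntidiag, subset_univ, and_true,
    Finsupp.degree_eq_sum]
  exact ⟨fun ⟨l, a, b⟩ => b.trans_le (Nat.le_of_lt_succ a), fun h => ⟨_, Nat.lt_succ_of_le h, rfl⟩⟩

theorem card_full (τ : Type) [Fintype τ] [DecidableEq τ] (s : ℕ) :
    #(full τ s) ≤ (Fintype.card τ + 1) ^ s := by
  induction s with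
  | zero =>
    rw [pow_zero, card_le_one]
    intro a ha b hb
    rw [mem_full, Nat.le_zero, Finsupp.degree_eq_zero_iff] at ha hb
    rw [ha, hb]
  | succ s ih =>
    have : full τ (s + 1) ⊆ (full τ s ×ˢ (univ : Finset (Option τ))).image
        fun x => x.1 + x.2.elim 0 (Finsupp.single · 1) := fun μ hμ => by
      rw [mem_full] at hμ
      by_cases z : μ = 0
      · exact mem_image.2 ⟨(0, none), by simp [mem_full], by simp [z]⟩
      · obtain ⟨a, ha⟩ := Finsupp.support_nonempty_iff.2 z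
        have e : μ - Finsupp.single a 1 + Finsupp.single a 1 = μ := tsub_add_cancel_of_le
          (Finsupp.single_le_iff.2 (Nat.one_le_iff_ne_zero.2 (Finsupp.mem_support_iff.1 ha)))
        refine mem_image.2 ⟨(μ - Finsupp.single a 1, some a), mem_product.2 ⟨mem_full.2 ?_,
          mem_univ _⟩, e⟩
        rw [← e, map_add, Finsupp.degree_single] at hμ
        exact Nat.le_of_succ_le_succ hμ
    refine (card_le_card this).trans (card_image_le.trans ?_)
    rw [card_product, card_univ, Fintype.card_option, pow_succ]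
    exact Nat.mul_le_mul_right _ ih

section
variable {T : TS Unit} {k s : ℕ} {lam : ℝ}

theorem aV_lo (h0 : 0 < lam) (h1 : lam ≤ 1) {μ : Option (Fin k) →₀ ℕ} (h : μ ∈ full _ s) :
    lam ^ (2 * s) ≤ aV k lam μ :=
  pow_le_pow_of_le_one h0.le h1 (by have := mem_full.1 h; omega)

theorem dk_diag {τ : Type} [DecidableEq τ] (W : Finset (τ →₀ ℕ)) (v : (τ →₀ ℕ) → ℝ) :
    (Matrix.of fun μ ν : W => dk v μ ν) = diagonal fun μ => v μ.1 := by
  ext μ ν
  simp only [dk, of_apply, diagonal_apply, Subtype.ext_iff]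

theorem aL_tri (h : T.Tri) (h0 : 0 < lam) : (aL T k s lam).Tri :=
  TS.shape_tri' h.cl (by rw [dk_diag]; exact PosDef.diagonal fun _ => pow_pos h0 _)
    fun μ _ ν _ e => by rw [show μ = ν from not_not.1 fun n => e (if_neg n)]

theorem aL_lev (p : (aL T k s lam).C) : (aL T k s lam).lev p = T.lev p.1.1 := TS.shape_lev p

theorem aL_ct (h : T.Tri) (h0 : 0 < lam) (h1 : lam ≤ 1) (l : ℕ) :
    (aL T k s lam).ct l ≤ (lam⁻¹ ^ (s * T.R l) * T.ct l) ^ (k + 2) ^ s := by
  have p := pow_pos h0 (2 * s)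
  have a := Ctl.th_kron (h.pd_Dl l) p (K := Matrix.of fun μ ν : full (Option (Fin k)) s =>
    dk (aV k lam) μ ν) (fun x => by
      rw [dk_diag, qf, dotProduct, mul_sum]
      refine sum_le_sum fun μ _ => ?_
      rw [mulVec_diagonal]
      nlinarith [aV_lo h0 h1 μ.2, sq_nonneg (x μ)])
    (J := {p // (aL T k s lam).lev p = l}) (f := fun p => ⟨p.1.1.1, (aL_lev _).symm.trans p.2⟩)
    (g := fun p => p.1.1.2) (fun j j' a b => Subtype.ext (Subtype.ext (Prod.ext
      (congrArg Subtype.val b) a))) ((aL_tri h h0).pd_Dl l)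
    fun j j' => congrFun₂ (TS.shape_D h.cl) j.1 j'.1
  have b := th_scale (h.pd_Dl l) p (pow_le_one₀ h0.le h1) 0
  rw [show √(lam ^ (2 * s)) = lam ^ s by rw [pow_mul', Real.sqrt_sq (pow_pos h0 s).le], ← inv_pow,
    ← pow_mul, Fintype.card_subtype] at b
  refine a.trans ((pow_le_pow_left₀ (th_nonneg _ _) b _).trans (pow_le_pow_right₀
    (one_le_mul_of_one_le_of_one_le (one_le_pow₀ (one_le_inv₀ h0 |>.2 h1)) (TS.one_le_ct h l)) ?_))
  rw [Fintype.card_coe]
  simpa using card_full (Option (Fin k)) s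

theorem ct_empty {σ : Type} {T : TS σ} {l : ℕ} (h : ∀ c, T.lev c ≠ l) : T.ct l = 1 := by
  have : IsEmpty {c // T.lev c = l} := ⟨fun c => h _ c.2⟩
  rw [TS.ct, th, tsum_eq_single 0 fun n hn => absurd (Subsingleton.elim _ _) hn, zc_zero, sub_zero,
    gs_zero]

theorem prod_ct (h : T.Tri) (hs : ∀ F, T.lev F ≤ s) (x : ℝ) :
    ∏ l ∈ range (s + 2), (x ^ (s * T.R l) * T.ct l) =
      x ^ (s * Fintype.card T.C) * ∏ l ∈ Icc 1 s, T.ct l := by
  rw [prod_mul_distrib, prod_pow_eq_pow_sum, ← mul_sum, ← card_univ,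
    card_eq_sum_card_fiberwise (f := T.lev) (t := range (s + 2)) fun F _ => by
      have := hs F; simp only [coe_range, Set.mem_Iio]; omega]
  refine congrArg _ (prod_subset (fun l a => ?_) fun l a b => ct_empty fun c e => b ?_).symm
  · rw [mem_Icc] at a; rw [mem_range]; omega
  · exact mem_Icc.2 ⟨e ▸ Nat.one_le_iff_ne_zero.2 fun z =>
      h.ne c ((Finsupp.degree_eq_zero_iff _).1 z), e ▸ hs c⟩

/-- the common difference -/
def aD (T : TS Unit) (k s : ℕ) (lam : ℝ) (π : T.C → ℤ) (p : (aL T k s lam).C) : ℤ :=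
  if p.1.2.1 none = 0 then π p.1.1 else 0

theorem aL_gk (h : T.Tri) (h0 : 0 < lam) (h1 : lam ≤ 1) (hk : 1 ≤ k) (hs : 1 ≤ s)
    (π : T.C → ℤ) : gk1 (aL T k s lam) (aD T k s lam π) ≤
      (lam⁻¹ ^ T.R 1 * T.ct 1) * (lam⁻¹ ^ T.R 1 * T.g1 π) := by
  let w : full (Option (Fin k)) s := ⟨Finsupp.single (some ⟨0, hk⟩) 1, mem_full.2 (by simpa using hs)⟩
  have dg : ∀ F : {F // T.lev F = 1}, w.1.mapDomain (fun _ => ()) = T.deg F.1 := fun F =>
    unit_ext (by rw [degree_col, Finsupp.degree_single]; exact F.2.symm)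
  let f : {F // T.lev F = 1} → {p // (aL T k s lam).lev p = 1} := fun F =>
    ⟨⟨(F.1, w), dg F⟩, (aL_lev _).trans F.2⟩
  have hf : Function.Injective f := fun F G e => Subtype.ext (congrArg (fun p => p.1.1.1) e)
  have t := aL_tri (k := k) (s := s) h h0
  have D : ∀ p q, (aL T k s lam).D p q = T.D p.1.1 q.1.1 * dk (aV k lam) p.1.2.1 q.1.2.1 :=
    congrFun₂ (TS.shape_D h.cl)
  have a := gk_blk (t.pd_Dl 1) hf (fun i j n => by
    rw [submatrix_apply, D, dk, if_neg fun e => n ⟨⟨j.1.1.1, (aL_lev _).symm.trans j.2⟩,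
      Subtype.ext (Subtype.ext (Prod.ext rfl (Subtype.ext e)))⟩, mul_zero])
    fun i => aD T k s lam π i.1
  have e : ((aL T k s lam).D.submatrix (Subtype.val : {p // (aL T k s lam).lev p = 1} → _)
      Subtype.val).submatrix f f = (lam ^ 2) • T.D.submatrix
        (Subtype.val : {F // T.lev F = 1} → _) Subtype.val := by
    ext i j
    rw [submatrix_apply, submatrix_apply, D, dk, if_pos rfl, mul_comm]
    simp [aV, f, w]
  have b := th_scale (h.pd_Dl 1) (pow_pos h0 2) (pow_le_one₀ h0.le h1) 0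
  have c := h.shr_g1 (κ := fun _ => lam) h0 h1 π
  rw [Real.sqrt_sq h0.le, Fintype.card_subtype] at b
  rw [e, show (fun i : {p // (aL T k s lam).lev p = 1} => aD T k s lam π i.1) ∘ f =
    fun F => π F.1 from funext fun F => if_pos (by simp [f, w]), ← TS.shr_g1_eq T fun _ => lam] at a
  rw [gk1, ← inv_inv' (Rw.blk_pd t.pd_Di 1), TS.lev_inv t]
  exact a.trans (mul_le_mul b c (TS.g1_nonneg _ _) ((th_nonneg _ _).trans b))

theorem aP_x {π : T.C → ℤ} (hπ : ∀ F, π F ≠ 0 → T.lev F = 1) (i : Fin k)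
    (y : (aL T k s lam).C → ℤ) : π ⬝ᵥ aP T k s lam (some i) y =
      π ⬝ᵥ aP T k s lam none y + (i : ℕ) * -(aD T k s lam π ⬝ᵥ y) := by
  have a : ∀ t, π ⬝ᵥ T.pt (fun _ => ()) (full _ s) y t =
      ∑ p : (aL T k s lam).C, π p.1.1 * (y p * p.1.2.1.prod fun o n => t o ^ n) := fun t => by
    rw [dotProduct, ← sum_fiberwise univ fun p : (aL T k s lam).C => p.1.1]
    refine sum_congr rfl fun F _ => ?_
    unfold TS.pt TS.Yp
    rw [map_sum, mul_sum]
    exact sum_congr rfl fun p hp => by rw [(mem_filter.1 hp).2, MvPolynomial.eval_monomial]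
  rw [aP, aP, a, a, dotProduct, ← sum_neg_distrib, mul_sum, ← sum_add_distrib]
  refine sum_congr rfl fun p _ => ?_
  by_cases z : π p.1.1 = 0
  · simp [aD, z]
  · obtain ⟨o, e⟩ := (Finsupp.sum_eq_one_iff _).1 ((TS.lev_wd p).symm.trans (hπ _ z))
    rw [aD, e]
    cases o <;> simp [aT]
    ring

end

theorem cnt' : CNT := by
  intro k s n V A lam α τ hk hs hV hA ha h0 h1 hn hτ hM
  have t := aL_tri (k := k) (s := s) hV.1 h0
  set X := lam⁻¹ ^ (s * Fintype.card V.T.C) * ∏ l ∈ Icc 1 s, V.T.ct l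
  have i1 := (one_le_inv₀ h0).2 h1
  have c1 : ∀ l, 1 ≤ V.T.ct l := TS.one_le_ct hV.1
  have x1 : lam⁻¹ ^ V.T.R 1 ≤ lam⁻¹ ^ (s * Fintype.card V.T.C) := pow_le_pow_right₀ i1
    ((card_le_univ _).trans (Nat.le_mul_of_pos_left _ hs))
  have x2 : V.T.ct 1 ≤ ∏ l ∈ Icc 1 s, V.T.ct l := by
    rw [← mul_prod_erase _ _ (mem_Icc.2 ⟨le_rfl, hs⟩)]
    exact le_mul_of_one_le_right (by linarith [c1 1]) (one_le_prod fun l _ => c1 l)
  have p1 : 1 ≤ lam⁻¹ ^ V.T.R 1 := one_le_pow₀ i1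
  have x3 : lam⁻¹ ^ V.T.R 1 * V.T.ct 1 ≤ X := mul_le_mul x1 x2 (by linarith [c1 1]) (by linarith)
  have x4 : lam⁻¹ ^ V.T.R 1 ≤ X := le_trans (le_mul_of_one_le_right (by linarith) (c1 1)) x3
  have g0 : 0 ≤ V.g1 := TS.g1_nonneg _ _
  have a := cnt t (s := s) (fun c => (aL_lev c).trans_le (hV.2.1 _)) (ψ := aD V.T k s lam V.π)
    (fun c e => (aL_lev c).trans (hV.2.2 _ fun z => e (by simp [aD, z]))) 0
  have b : ∏ l ∈ range (s + 2), (aL V.T k s lam).ct l ≤ X ^ n := by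
    refine (prod_le_prod (fun l _ => th_nonneg _ _) fun l _ => aL_ct hV.1 h0 h1 l).trans ?_
    rw [prod_pow, prod_ct hV.1 hV.2.1]
    exact pow_le_pow_right₀ (p1.trans x4) hn
  have c : gk1 (aL V.T k s lam) (aD V.T k s lam V.π) ≤ X * (X * V.g1) :=
    (aL_gk hV.1 h0 h1 hk hs V.π).trans (mul_le_mul x3 (mul_le_mul_of_nonneg_right x4 g0)
      (mul_nonneg (by linarith) g0) (by linarith))
  have z : (aL V.T k s lam).Zc ≤ 2 * (aL V.T k s lam).Z := by
    have := (abs_le.1 hM).1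
    nlinarith [t.Zc_pos]
  have f0 : ∀ y, 0 ≤ fA V (Top.zs A) α y ∧ fA V (Top.zs A) α y ≤ α⁻¹ := fun y => by
    unfold fA; split_ifs <;> simp [ha.le]
  have f1 : ∀ y, ∏ i ∈ aA k, fA V (Top.zs A) α (aP V.T k s lam i y) ≤ α⁻¹ ^ k := fun y =>
    (prod_le_prod (fun _ _ => (f0 _).1) fun _ _ => (f0 _).2).trans_eq (by simp [aA])
  have d : (aL V.T k s lam).S (fun y => ∏ i ∈ aA k, fA V (Top.zs A) α (aP V.T k s lam i y)) ≤
      α⁻¹ ^ k * (aL V.T k s lam).S fun y => if aD V.T k s lam V.π ⬝ᵥ y = 0 then 1 else 0 := by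
    rw [← TS.S_mul]
    refine t.S_mono (.of (B := α⁻¹ ^ k) fun y => ?_) ((Bb.const _).mul (.of (B := 1) fun y => by
      split_ifs <;> simp)) fun y => ?_
    · rw [Real.norm_of_nonneg (prod_nonneg fun _ _ => (f0 _).1)]; exact f1 y
    · split_ifs with e
      · rw [mul_one]; exact f1 y
      · obtain ⟨i, hi, u⟩ := Top.free_int hA (a := V.x (aP V.T k s lam none y))
          (neg_ne_zero.2 e) hk
        rw [mul_zero]
        refine (prod_eq_zero (i := some ⟨i, hi⟩) (by simp [aA]) (if_neg ?_)).le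
        rwa [Ctr.x, aP_x hV.2.2, ← add_assoc]
  have X0 : 0 ≤ X := by linarith
  rw [TS.E, div_le_iff₀ t.Z_pos]
  refine d.trans ((mul_le_mul_of_nonneg_left (a.trans (mul_le_mul (mul_le_mul c b
    (prod_nonneg fun _ _ => th_nonneg _ _) (by positivity)) z t.Zc_pos.le (by positivity)))
    (by positivity)).trans_eq (by ring))

end Crest.Agent.N49.En

end
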