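import Crest.Agent.N49.En.Defs
import Crest.Agent.N49.Br.Vis
import Crest.Agent.N49.Tw.Ap2
import Crest.Agent.N49.Tw.Mp
import Crest.Agent.N49.Ho.Fac
import Crest.Agent.N49.Rf.G1

/-!
# Row 49 (helper52): the end of the chain, one block is an exact product of point towers
-/

set_option autoImplicit false

open Matrix Finset MvPolynomial

noncomputable section

namespace Crest.Agent.N49.En

open Po Tw Br

namespace E0

theorem stg_det {σ : Type} {T : TS σ} {st : T.C → ℕ} {M : ℕ} (h : T.Stg st M) :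
    (T.stg st).A.det = T.A.det := by
  have a : T.Aᵀ.BlockTriangular st := fun i j k => by
    by_contra z
    have z' : coeff (Finsupp.single i 1) (T.Φ j) ≠ 0 := fun e => z (by simp [TS.A, e])
    have := h.wt j (mem_support_iff.2 z')
    rw [Finsupp.weight_single, one_smul] at this
    omega
  have b : (show Matrix T.C T.C ℝ from (T.stg st).A)ᵀ.BlockTriangular st := fun i j k =>
    (h.A j i).trans (if_neg k.ne)
  rw [← det_transpose T.A, a.det]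
  refine (det_transpose _).symm.trans (b.det.trans (prod_congr rfl fun t _ => congrArg det ?_))
  ext i j
  exact (h.A j.1 i.1).trans (if_pos (j.2.trans i.2.symm))

theorem shr_congr {σ : Type} (T : TS σ) {κ κ' : ℕ → ℝ} (h : ∀ c, κ (T.lev c) = κ' (T.lev c)) :
    T.shr κ = T.shr κ' := congrArg T.setK (by ext c c'; simp [h])

theorem g1_congr {σ : Type} (T : TS σ) {κ κ' : ℕ → ℝ} (h : ∀ c, κ (T.lev c) = κ' (T.lev c))
    (π : T.C → ℤ) : (T.shr κ).g1 π = (T.shr κ').g1 π :=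
  congrArg (fun K => (T.setK K).g1 π) (by ext c c'; simp [h])

section
variable {σ τ : Type} {T : TS σ} {S : Sh σ τ} {st : T.C → ℕ} {Ψ : T.Twd S}

variable (T S Ψ) in
/-- the point tower before the change of widths -/
def e0 (χ : S.W → ℤ) : TS σ := T.setΦ fun F => MvPolynomial.map (eval fun w => (χ w : ℝ)) (Ψ F)

theorem e0_A (h : T.Adm S st Ψ) (χ : S.W → ℤ) : (e0 T S Ψ χ).A = T.A := by
  refine Matrix.ext fun (c : T.C) (c' : T.C) => ?_
  change (if T.lev c = T.lev c' then coeff (Finsupp.single c' 1 : T.C →₀ ℕ)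
    (MvPolynomial.map (eval fun w => (χ w : ℝ)) (Ψ c)) else 0) =
    if T.lev c = T.lev c' then coeff (Finsupp.single c' 1 : T.C →₀ ℕ) (T.Φ c) else 0
  split_ifs with e
  · rw [coeff_map, h.top c (Finsupp.single c' 1) (by rw [Finsupp.weight_single, one_smul, e]),
      eval_C]
  · rfl

theorem e0_D (h : T.Adm S st Ψ) (χ : S.W → ℤ) : (e0 T S Ψ χ).D = T.D := by
  unfold TS.D; rw [e0_A h]; rfl

theorem e0_tri (hT : T.Tri) (h : T.Adm S st Ψ) (χ : S.W → ℤ) : (e0 T S Ψ χ).Tri :=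
  ⟨fun c m hm => (h.le c m (support_map_subset _ _ hm)).1, hT.ne, by rw [e0_A h]; exact hT.det,
    hT.pd, hT.blk⟩

theorem e0_ct (h : T.Adm S st Ψ) (χ : S.W → ℤ) : (e0 T S Ψ χ).ct = T.ct := by
  unfold TS.ct; rw [e0_D h]; rfl

theorem e0_g1 (h : T.Adm S st Ψ) (χ : S.W → ℤ) : (e0 T S Ψ χ).g1 = T.g1 := by
  unfold TS.g1; rw [e0_D h]; rfl

end

variable {s : ℕ} {D : Finset (Pt (Fin 1))} {v : ℕ → Pt (Fin 1) → ℝ} {ω : Pt (Fin 1)}

theorem bl_wd (w : Wd s D) : bl w.tr = univ :=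
  eq_univ_of_card _ (by rw [w.card, Fintype.card_fin, min_eq_right w.lv_pos])

theorem le_iff (hu : bl ω = univ) (w : Wd s D) : Le w.tr ω ↔ w.tr = ω :=
  ⟨fun h => h.eq (.refl _) ((bl_wd w).trans hu.symm), fun h => h ▸ .refl _⟩

theorem kap_eq (hω : ω ∈ D) (hu : bl ω = univ) {l : ℕ} (h1 : 1 ≤ l) (h2 : l ≤ s) :
    qf (tw s D v).K (fun w => if (tw s D v).dg w = l then (Br.chi v ω w : ℝ) else 0) = v l ω := by
  let w0 : Wd s D := ⟨(⟨l - 1, by omega⟩, ⟨ω, hω⟩), by simp [hu]⟩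
  have e0 : w0.lv = l := Nat.sub_add_cancel h1
  rw [qf, dotProduct, sum_eq_single w0 (fun (w : Wd s D) _ n => by
    by_cases a : w.lv = l
    · rw [Br.chi, if_neg fun b => n (Wd.ext' (a.trans e0.symm) ((le_iff hu w).1 b))]; simp
    · rw [tw_dg, if_neg a, zero_mul]) (by simp), mulVec_diagonal, tw_dg, if_pos e0, Br.chi,
    if_pos (show Le w0.tr ω from .refl _), e0]
  simp [w0, Wd.tr]

variable {T : TS Unit} {st : T.C → ℕ} {Ψ : T.Twd (tw s D v)}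

theorem ev_eq (hT : T.Tri) (hs : ∀ F, T.lev F ≤ s) (hω : ω ∈ D) (hu : bl ω = univ) :
    T.ev _ Ψ (Br.chi v ω) = (e0 T _ Ψ (Br.chi v ω)).shr fun l => √(v l ω) :=
  shr_congr _ fun c => congrArg _ (kap_eq hω hu (hT.lev_pos c) (hs c))

/-- the coordinate of the family `F` at the point `ω` -/
def cw (v : ℕ → Pt (Fin 1) → ℝ) (hT : T.Tri) (hs : ∀ F, T.lev F ≤ s) (hω : ω ∈ D)
    (hu : bl ω = univ) (F : T.C) : T.Cw (tw s D v) :=
  ⟨(F, ⟨(⟨T.lev F - 1, by have := hT.lev_pos F; have := hs F; omega⟩, ⟨ω, hω⟩), by simp [hu]⟩), by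
    rw [tw_cd]
    ext
    have := hT.lev_pos F
    simp only [Wd.lv, Finsupp.single_eq_same]
    rw [Nat.sub_add_cancel this, TS.lev, Finsupp.degree_eq_sum, Fintype.sum_unique]⟩

theorem lv_cw (p : T.Cw (tw s D v)) : Wd.lv p.1.2 = T.lev p.1.1 :=
  ((TS.lev_cw p).trans (tw_dg _)).symm

theorem cw_ext {p p' : T.Cw (tw s D v)} (h : p.1.1 = p'.1.1) (k : Wd.tr p.1.2 = Wd.tr p'.1.2) :
    p = p' := Subtype.ext (Prod.ext h (Wd.ext' (by rw [lv_cw, lv_cw, h]) k))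

section
variable (hT : T.Tri) (hs : ∀ F, T.lev F ≤ s) (hω : ω ∈ D) (hu : bl ω = univ)

theorem sum_chi {R : Type} [CommRing R] (g : T.Cw (tw s D v) → R) (F : T.C) :
    ∑ p : T.Cw (tw s D v) with p.1.1 = F, (Br.chi v ω p.1.2 : R) * g p = g (cw v hT hs hω hu F) := by
  refine (sum_eq_single (cw v hT hs hω hu F) (fun p hp n => ?_) fun h => ?_).trans ?_
  · rw [Br.chi, if_neg fun b => n (cw_ext (mem_filter.1 hp).2 ((le_iff hu _).1 b))]; simp
  · exact (h (mem_filter.2 ⟨mem_univ _, rfl⟩)).elim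
  · rw [Br.chi, if_pos (show Le (Wd.tr (cw v hT hs hω hu F).1.2) ω from .refl _)]; simp

theorem pw_cw (y : T.Cw (tw s D v) → ℤ) :
    T.pw _ (Br.chi v ω) y = fun F => y (cw v hT hs hω hu F) :=
  funext fun F => sum_chi hT hs hω hu y F

theorem u_cw (hD : Dc D) (hv : ∀ j w, 0 < v j w) (h1 : 1 ≤ s) (h : T.Adm _ st Ψ)
    (y : T.Cw (tw s D v) → ℤ) (F : T.C) : (T.ev _ Ψ (Br.chi v ω)).u (zc (T.pw _ (Br.chi v ω) y)) F =
      (T.tw _ Ψ).u (zc y) (cw v hT hs hω hu F) :=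
  (TS.u_ev h (tw_ok hD hv) (tw_pt hD hω hu h1).mul y (hT.lev_pos F) (hs F)).trans
    (sum_chi hT hs hω hu _ F)

theorem kw_cw {B : Matrix T.C T.C ℝ} (hB : ∀ F F', B F F' ≠ 0 → T.lev F = T.lev F')
    (d : Wd s D → ℝ) (F F' : T.C) : T.kw (tw s D v) B (diagonal d) (cw v hT hs hω hu F)
      (cw v hT hs hω hu F') = B F F' * d (cw v hT hs hω hu F).1.2 := by
  change B F F' * diagonal d _ _ = _
  by_cases z : B F F' = 0
  · rw [z, zero_mul, zero_mul]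
  · rw [show (cw v hT hs hω hu F').1.2 = (cw v hT hs hω hu F).1.2 from
      Wd.ext' (by rw [lv_cw, lv_cw]; exact (hB _ _ z).symm) rfl, diagonal_apply_eq]

theorem K_cw (hv : ∀ j w, 0 < v j w) (F F' : T.C) :
    (T.tw _ Ψ).K (cw v hT hs hω hu F) (cw v hT hs hω hu F') = (T.ev _ Ψ (Br.chi v ω)).K F F' := by
  refine (kw_cw hT hs hω hu hT.blk _ F F').trans ?_
  change T.K F F' * v (Wd.lv (cw v hT hs hω hu F).1.2) ω = √(qf _ _) * T.K F F' * √(qf _ _)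
  rw [lv_cw]
  erw [kap_eq hω hu (hT.lev_pos F) (hs F), kap_eq hω hu (hT.lev_pos F') (hs F')]
  change T.K F F' * v (T.lev F) ω = √(v (T.lev F) ω) * T.K F F' * √(v (T.lev F') ω)
  by_cases z : T.K F F' = 0
  · simp [z]
  · rw [← hT.blk _ _ z, mul_comm (√_), mul_assoc, Real.mul_self_sqrt (hv _ _).le]

include hT hs hω hu in
theorem ev_tri (hv : ∀ j w, 0 < v j w) (h : T.Adm _ st Ψ) : (T.ev _ Ψ (Br.chi v ω)).Tri := by
  rw [ev_eq hT hs hω hu]
  exact (e0_tri hT h _).shr fun l => (Real.sqrt_pos.2 (hv l ω)).ne'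

end

section
variable (hT : T.Tri) (hs : ∀ F, T.lev F ≤ s) {E : Finset (Pt (Fin 1))}
  (hE : ∀ ω, ω ∈ E ↔ ω ∈ D ∧ bl ω = univ)

/-- the coordinates are pairs (point, family) -/
def eqv (v : ℕ → Pt (Fin 1) → ℝ) : E × T.C ≃ T.Cw (tw s D v) :=
  Equiv.ofBijective (fun x => cw v hT hs ((hE _).1 x.1.2).1 ((hE _).1 x.1.2).2 x.2)
    ⟨fun _ _ e => Prod.ext (Subtype.ext (congrArg (fun p : T.Cw (tw s D v) => Wd.tr p.1.2) e))
      (congrArg (fun p : T.Cw (tw s D v) => p.1.1) e),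
      fun p => ⟨(⟨Wd.tr p.1.2, (hE _).2 ⟨Wd.mem _, bl_wd _⟩⟩, p.1.1), cw_ext rfl rfl⟩⟩

include hT hs hE in
theorem wt_eq (hD : Dc D) (hv : ∀ j w, 0 < v j w) (h1 : 1 ≤ s) (h : T.Adm _ st Ψ)
    (y : T.Cw (tw s D v) → ℤ) :
    (T.tw _ Ψ).wt y = ∏ ω : E, (T.ev _ Ψ (Br.chi v ω)).wt (T.pw _ (Br.chi v ω) y) := by
  have := Ho.qf_inv_fac (C := (T.tw _ Ψ).C) (M := (T.tw _ Ψ).K)
    ((Equiv.emptySum Empty _).trans (eqv hT hs hE v))
    (TS.kw_posDef (S := tw s D v) hT.pd (tw_ok hD hv).pd) (fun c => c.elim) (fun q q' n =>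
      mul_eq_zero_of_right _ (diagonal_apply_ne _ fun e : (eqv hT hs hE v q).1.2 =
        (eqv hT hs hE v q').1.2 => n (Subtype.ext (congrArg Wd.tr e :))))
    ((T.tw _ Ψ).u (zc y))
  rw [TS.wt, gs, this, show ∀ (X : Matrix Empty Empty ℝ) x, qf X x = 0 from
    fun _ _ => by simp [qf, dotProduct], zero_add, mul_sum, ← sum_neg_distrib, Real.exp_sum]
  refine prod_congr rfl fun ω _ => ?_
  have a := ((hE _).1 ω.2).1
  have b := ((hE _).1 ω.2).2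
  rw [TS.wt, gs, funext (u_cw hT hs a b hD hv h1 h y),
    ← Matrix.ext (K_cw (Ψ := Ψ) hT hs a b hv)]
  rfl

include hT hs hE in
theorem S_eq (hD : Dc D) (hv : ∀ j w, 0 < v j w) (h1 : 1 ≤ s) (h : T.Adm _ st Ψ)
    {f : (T.C → ℤ) → ℝ} (hf : Bb f) :
    (T.tw _ Ψ).S (fun y => ∏ ω ∈ E, f (T.pw _ (Br.chi v ω) y)) =
      ∏ ω ∈ E, (T.ev _ Ψ (Br.chi v ω)).S f := by
  have := (Gw.hasSum_pi_prod (fun (ω : E) (x : T.C → ℤ) => (T.ev _ Ψ (Br.chi v ω)).wt x * f x)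
    fun ω => (ev_tri hT hs ((hE _).1 ω.2).1 ((hE _).1 ω.2).2 hv h).sm hf).tsum_eq
  rw [← prod_coe_sort E fun ω => (T.ev _ Ψ (Br.chi v ω)).S f]
  refine Eq.trans ?_ this
  refine (((Equiv.curry E T.C ℤ).symm.trans ((eqv hT hs hE v).arrowCongr
    (Equiv.refl ℤ))).tsum_eq _).symm.trans (tsum_congr fun x => ?_)
  have k : ∀ ω : E, T.pw _ (Br.chi v ω) (((Equiv.curry E T.C ℤ).symm.trans
      ((eqv hT hs hE v).arrowCongr (Equiv.refl ℤ))) x) = x ω := fun ω => by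
    rw [pw_cw hT hs ((hE _).1 ω.2).1 ((hE _).1 ω.2).2]
    funext F
    exact congrArg (Function.uncurry x) ((eqv hT hs hE v).symm_apply_apply (ω, F))
  rw [wt_eq hT hs hE hD hv h1 h, prod_mul_distrib]
  exact congrArg₂ (· * ·) (prod_congr rfl fun ω _ => congrArg _ (k ω))
    ((prod_coe_sort E _).symm.trans (prod_congr rfl fun ω _ => congrArg f (k ω)))

include hT hs hE in
theorem Z_eq (hD : Dc D) (hv : ∀ j w, 0 < v j w) (h1 : 1 ≤ s) (h : T.Adm _ st Ψ) :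
    (T.tw _ Ψ).Z = ∏ ω ∈ E, (T.ev _ Ψ (Br.chi v ω)).Z := by
  have := S_eq hT hs hE hD hv h1 h (Bb.const 1)
  simp only [prod_const_one] at this
  exact (TS.S_one _).symm.trans (this.trans (prod_congr rfl fun _ _ => TS.S_one _))

include hT hs hE in
theorem E_eq (hD : Dc D) (hv : ∀ j w, 0 < v j w) (h1 : 1 ≤ s) (h : T.Adm _ st Ψ)
    {f : (T.C → ℤ) → ℝ} (hf : Bb f) :
    (T.tw _ Ψ).E (fun y => ∏ ω ∈ E, f (T.pw _ (Br.chi v ω) y)) =
      ∏ ω ∈ E, (T.ev _ Ψ (Br.chi v ω)).E f :=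
  (congrArg₂ (· / ·) (S_eq hT hs hE hD hv h1 h hf) (Z_eq hT hs hE hD hv h1 h)).trans
    (prod_div_distrib _ _).symm

end

/-- one point only -/
theorem mas_one {M C n : ℕ} {a η : ℝ} (hM : MAST M C) (hs : ∀ F, T.lev F ≤ s) (hD : Dc D)
    (hv : ∀ j w, 0 < v j w) (h1 : 1 ≤ s) (hω : ω ∈ D) (hu : bl ω = univ) (hl : ∀ w ∈ D, Le w ω)
    (h : T.Hy _ st Ψ M C n a η) : (T.ev _ Ψ (Br.chi v ω)).Mas η := by
  have hT := h.stg.cl.1
  have hE : ∀ w, w ∈ ({ω} : Finset _) ↔ w ∈ D ∧ bl w = univ := fun w =>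
    mem_singleton.trans ⟨fun e => e ▸ ⟨hω, hu⟩,
      fun e => (hl w e.1).eq (.refl _) (e.2.trans hu.symm)⟩
  refine mas_of (Eq.symm ?_) (Eq.symm ?_) (hM _ _ T _ st Ψ n a η h)
  · exact (Z_eq hT hs hE hD hv h1 h.adm).trans (prod_singleton _ _)
  let e : T.C ≃ (T.lw _ st Ψ).C := Equiv.ofBijective (cw v hT hs hω hu)
    ⟨fun _ _ e => congrArg (fun p : T.Cw (tw s D v) => p.1.1) e, fun p => ⟨p.1.1, cw_ext rfl
      ((le_iff hu _).1 (hl _ (Wd.mem _))).symm⟩⟩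
  have t := ev_tri hT hs hω hu hv h.adm
  have a1 := h.tri.Zc_sq
  have a2 := t.Zc_sq
  have e1 : (T.lw _ st Ψ).K.det = (T.ev _ Ψ (Br.chi v ω)).K.det :=
    (det_submatrix_equiv_self e _).symm.trans
      (congrArg det (Matrix.ext (K_cw (Ψ := Ψ) hT hs hω hu hv)))
  have e2 : (T.lw _ st Ψ).A.det = (T.ev _ Ψ (Br.chi v ω)).A.det := by
    rw [TS.lw_A h.stg h.adm h.sz.toOk]
    refine (det_submatrix_equiv_self e _).symm.trans (Eq.trans (congrArg det (Matrix.ext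
      fun F F' => (kw_cw hT hs hω hu (fun F F' z => congrArg Finsupp.degree (h.stg.bl F F' z))
        (fun _ => 1) F F').trans (mul_one _))) ((stg_det h.stg).trans ?_))
    exact congrArg det (e0_A h.adm _).symm
  rw [e1, e2, ← a2] at a1
  exact (pow_left_inj₀ h.tri.Zc_pos.le t.Zc_pos.le two_ne_zero).1
    (mul_right_cancel₀ (pow_ne_zero 2 t.det) a1)

theorem mas_pt {M C n : ℕ} {a η : ℝ} (hM : MAST M C) (hs : ∀ F, T.lev F ≤ s) (hD : Dc D)
    (ha : 0 < a) (hv : ∀ j w, a ≤ v j w) (h1 : 1 ≤ s) (hω : ω ∈ D) (hu : bl ω = univ)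
    (h : T.Hy _ st Ψ M C n a η) : (T.ev _ Ψ (Br.chi v ω)).Mas η := by
  have hT := h.stg.cl.1
  have hD' : Dc (D.filter (Le · ω)) := fun x hx w k =>
    mem_filter.2 ⟨hD x (mem_filter.1 hx).1 w k, k.trans (mem_filter.1 hx).2⟩
  have hω' : ω ∈ D.filter (Le · ω) := mem_filter.2 ⟨hω, .refl _⟩
  let f : Wd s (D.filter (Le · ω)) → Wd s D := fun w =>
    ⟨(w.1.1, ⟨w.tr, (mem_filter.1 w.mem).1⟩), w.2⟩
  have hf : Function.Injective f := fun w w' e => 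
    Wd.ext' (congrArg Wd.lv e :) (congrArg Wd.tr e :)
  let φ : Matrix (tw s (D.filter (Le · ω)) v).W (tw s D v).W ℤ :=
    Matrix.of fun w x => if x = f w then 1 else 0
  have z := tw_sz (s := s) hD' ha hv (Nat.le_add_left 1 _) (Nat.le_add_right _ 1)
  have := mas_one hM hs hD' (fun j w => ha.trans_le (hv j w)) h1 hω' hu
    (fun w k => (mem_filter.1 k).2) (Ψ := T.tp _ _ φ Ψ) (n := n) (a := a) (η := η)
    ⟨h.stg, h.adm.tp fun w x k => by
      obtain rfl : x = f w := by simpa [φ] using k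
      rw [tw_dg, tw_dg]; rfl, h.pos, h.le, h.rg, ⟨z.toOk,
        (Fintype.card_le_of_injective f hf).trans h.sz.card, fun w m => by
          have k := h.sz.ht (f w) (Finsupp.single (f w) 1)
          rw [h.sz.one, if_pos rfl] at k
          refine le_trans ?_ k
          change |(if _ then 1 else 0 : ℤ)| ≤ _
          split_ifs <;> simp, z.lo, z.gen⟩⟩
  rw [ev_eq hT hs hω' hu] at this
  rw [ev_eq hT hs hω hu]
  convert this using 2
  refine congrArg T.setΦ (funext fun F => ?_)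
  rw [TS.tp, MvPolynomial.map_map]
  refine congrArg (MvPolynomial.map · (Ψ F)) (ringHom_ext (fun r => ?_) fun (x : Wd s D) => ?_)
  · simp [Sh.pu]
  · by_cases k : Le x.tr ω
    · obtain ⟨w, rfl⟩ : ∃ w, f w = x := ⟨⟨(x.1.1, ⟨x.tr, mem_filter.2 ⟨x.mem, k⟩⟩), x.2⟩, rfl⟩
      simp [Sh.pu, Sh.el, φ, hf.eq_iff, Br.chi, k, show Le w.tr ω from k]
    · have : ∀ w, x ≠ f w := fun w e => k (e ▸ (mem_filter.1 w.mem).2)
      simp [Sh.pu, Sh.el, φ, this, Br.chi, k]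

end E0

open E0 in
/-- **the end** -/
theorem end0 : END0 := by
  intro s M C n a η L T st q v Ψ f hM h h1 hs hq hv ha f0 hf hL H
  have hT := h.stg.cl.1
  have hp : ∀ j w, 0 < v j w := fun j w => ha.trans_le (hv j w).1
  have hE : ∀ ω, ω ∈ pts q ↔ ω ∈ grid q ∧ bl ω = univ := fun ω =>
    ⟨fun k => ⟨pts_grid k, pts_bl k⟩, fun k => mem_pts.2 fun i => by
      obtain ⟨b, e⟩ := Option.ne_none_iff_exists'.1 (mem_bl.1 (k.2 ▸ mem_univ i))
      exact ⟨b, mem_grid.1 k.1 i b e, e⟩⟩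
  have ne : (pts q).Nonempty := ⟨fun _ => some 0, mem_pts.2 fun i =>
    ⟨0, by rw [Subsingleton.elim i 0]; exact hq, rfl⟩⟩
  have tr := fun ω (k : ω ∈ pts q) => ev_tri hT hs (pts_grid k) (pts_bl k) hp h.adm
  obtain ⟨ω, k, mx⟩ := exists_max_image _ (fun ω => (T.ev _ Ψ (Br.chi v ω)).E f) ne
  have H' := H.trans_eq (E_eq hT hs hE (dc_grid q) hp h1 h.adm hf)
  have n0 : ∀ x, 0 ≤ (T.ev _ Ψ (Br.chi v x)).E f := fun x =>
    TS.E_nonneg (T := T.ev _ Ψ (Br.chi v x)) f0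
  have H2 : L ^ #(pts q) ≤ (T.ev _ Ψ (Br.chi v ω)).E f ^ #(pts q) :=
    H'.trans ((prod_le_prod (fun x _ => n0 x) mx).trans_eq (prod_const _))
  have t0 := e0_tri hT h.adm (Br.chi v ω)
  have s0 : ∀ l, 0 < √(v l ω) := fun l => Real.sqrt_pos.2 (hp l ω)
  have s1 : ∀ l, √(v l ω) ≤ 1 := fun l => Real.sqrt_le_one.2 (hv l ω).2
  have s2 : ∀ l k, (√(v l ω))⁻¹ ^ k ≤ (√a)⁻¹ ^ k := fun l k => pow_le_pow_left₀
    (inv_pos.2 (s0 l)).le (inv_anti₀ (Real.sqrt_pos.2 ha) (Real.sqrt_le_sqrt (hv l ω).1)) k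
  refine ⟨ω, k, tr ω k, le_of_pow_le_pow_left₀ ne.card_pos.ne' (n0 ω) H2,
    mas_pt hM hs (dc_grid q) ha (fun j w => (hv j w).1) h1 (pts_grid k) (pts_bl k) h,
    fun l => ?_, fun π => ?_⟩
  · rw [ev_eq hT hs (pts_grid k) (pts_bl k)]
    refine (t0.shr_ct (s0 l) (s1 l)).trans ?_
    rw [e0_ct h.adm]
    exact mul_le_mul_of_nonneg_right (s2 l _) (th_nonneg _ _)
  · refine (g1_congr (e0 T _ Ψ (Br.chi v ω)) (κ' := fun l => √(v l ω)) (fun c => congrArg _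
      (kap_eq (pts_grid k) (pts_bl k) (hT.lev_pos c) (hs c))) π).trans_le
      ((t0.shr_g1 (s0 1) (s1 1) π).trans ?_)
    rw [e0_g1 h.adm]
    exact mul_le_mul_of_nonneg_right (s2 1 _) (T.g1_nonneg π)

end Crest.Agent.N49.En

end
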