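import Crest.Agent.N49.En.Defs
import Crest.Agent.N49.Tw.Exp
import Crest.Agent.N49.Tw.ConM

/-!
# Row 49 (helper64): the first step
-/

set_option autoImplicit false

open Matrix Finset

noncomputable section

namespace Crest.Agent.N49.En

open Po Tw

namespace L0k

variable {τ : Type} [Fintype τ] [DecidableEq τ]

theorem card_full' (s : ℕ) : #(full τ s) ≤ (Fintype.card τ + 1) ^ s := by
  induction s with
  | zero =>
    refine card_le_one.2 fun a ha b hb => ?_
    rw [(Finsupp.degree_eq_zero_iff _).1 (Nat.le_zero.1 (mem_full.1 ha)),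
      (Finsupp.degree_eq_zero_iff _).1 (Nat.le_zero.1 (mem_full.1 hb))]
  | succ s ih =>
    have : full τ (s + 1) ⊆ (full τ s ×ˢ (univ : Finset (Option τ))).image
        fun p => p.1 + p.2.elim 0 fun a => Finsupp.single a 1 := fun μ h => by
      by_cases z : μ = 0
      · exact mem_image.2 ⟨(0, none), by simp [mem_full], by simp [z]⟩
      obtain ⟨a, ha⟩ := Finsupp.ne_iff.1 z
      obtain ⟨ν, rfl⟩ := exists_add_of_le (Finsupp.single_le_iff.2 (Nat.one_le_iff_ne_zero.2 ha))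
      refine mem_image.2 ⟨(ν, some a), ?_, add_comm _ _⟩
      rw [mem_full, map_add, Finsupp.degree_single] at h
      simp only [mem_product, mem_full, mem_univ, and_true]
      omega
    refine (card_le_card this).trans (card_image_le.trans ?_)
    rw [card_product, card_univ, Fintype.card_option, pow_succ]
    exact Nat.mul_le_mul_right _ ih

/-- monomial shapes with a diagonal kernel -/
theorem msz {W : Finset (τ →₀ ℕ)} (ε : τ → ℤ) {v : (τ →₀ ℕ) → ℝ} {n : ℕ} {a : ℝ} (h : Dn W)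
    (hn : #W ≤ n) (ha : 0 < a) (hv : ∀ μ ∈ W, a ≤ v μ) :
    (Sh.mono (fun _ => ()) W ε (dk v)).Sz n a :=
  Sh.mono_sz h (kb_dk (b := ∑ μ ∈ W, v μ) fun μ k =>
    ⟨hv μ k, single_le_sum (fun ν k => ha.le.trans (hv ν k)) k⟩) ha (Sh.dk_blk v) hn

theorem E_fA (V : Ctr) (A : Set ℤ) (α : ℝ) : V.T.E (fA V A α) = α⁻¹ * V.den A := by
  rw [Ctr.den, TS.P, ← TS.E_mul]
  refine congrArg _ (funext fun y => ?_)
  by_cases k : V.x y ∈ A <;> simp [fA, k]

theorem le_aV {k s : ℕ} {lam : ℝ} (h0 : 0 < lam) (h1 : lam ≤ 1) {μ : Option (Fin k) →₀ ℕ}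
    (h : μ ∈ full _ s) : lam ^ (2 * s) ≤ aV k lam μ :=
  pow_le_pow_of_le_one h0.le h1 (by have := mem_full.1 h; omega)

end L0k

open L0k

theorem l0 (mean : MEAN) (cnt : CNT) : L0 := fun s hs => by
  obtain ⟨c0, η, a, j, c1, c2, η0, η1, H⟩ := Gb.lnum (s + 2)
  obtain ⟨a0, ha0⟩ := exists_pow_lt_of_lt_one (show 0 < η / 6 by positivity)
    (show (1 / 2 : ℝ) < 1 by norm_num)
  refine ⟨c0, η / 4, a + a0, j, c1, c2, by positivity, by linarith,
    fun m q n V A lam α τ b ev hq ok fr hα den l0 l1 hl τ0 hτ hn b0 hb sm hc => ?_⟩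
  have h := ok.1
  have α0 : 0 < α := lt_of_lt_of_le (by positivity) hα
  have αi : α⁻¹ ≤ 2 ^ m := by rwa [inv_le_comm₀ α0 (by positivity), ← one_div]
  have τ1 : 2 ^ m * τ ≤ η / 6 := by
    refine (mul_le_mul_of_nonneg_left (hτ.trans (one_div_le_one_div_of_le (by positivity)
      (pow_le_pow_right₀ one_le_two (show a0 + m ≤ _ by omega)))) (by positivity)).trans ?_
    refine le_of_eq_of_le ?_ ha0.le
    rw [pow_add, _root_.one_div_pow]
    field_simp
  have τ2 : τ ≤ η / 6 := (le_mul_of_one_le_left τ0.le (one_le_pow₀ one_le_two)).trans τ1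
  have n1 : (s + 2 + 2) ^ s ≤ n := (Nat.pow_le_pow_left (by nlinarith) s).trans hn
  have n2 : s + 4 ≤ n := (Nat.le_self_pow (by omega) _).trans n1
  have f0 : ∀ y, 0 ≤ fA V (Top.zs A) α y := fun y => by
    unfold fA; split_ifs <;> positivity
  have f1 : ∀ y, fA V (Top.zs A) α y ≤ 2 ^ m := fun y => by
    unfold fA; split_ifs; exacts [αi, by positivity]
  have sz : ∀ A', Gb.Dn A' → (Sh.mono (fun _ => ()) (Gb.GW (q := q) (full _ s) A')
      (aE (s + 2) ∘ Prod.fst) (dk fun ν => aV _ lam (ν.mapDomain Prod.fst))).Sz n b := fun A' d => by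
    refine msz _ (Gb.GW_dn dn_full d) ?_ b0
      fun ν k => hb.trans (le_aV l0 l1 (Gb.mem_IW.1 (Gb.mem_GW.1 k).1).1)
    refine (card_le_card (t := full _ s) fun ν k => ?_).trans ((card_full' s).trans ?_)
    · have := mem_full.1 (Gb.mem_IW.1 (Gb.mem_GW.1 k).1).1
      rwa [Finsupp.degree_mapDomain, ← mem_full] at this
    · simpa using hn
  have sz0 := msz (aE (s + 2)) (v := aV _ lam) (n := n) dn_full
    ((card_full' s).trans (by simpa using n1)) b0 fun μ k => hb.trans (le_aV l0 l1 k)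
  obtain ⟨i, hi, H⟩ := H m q τ ev hq (τ0) (hτ.trans (one_div_le_one_div_of_le (by positivity)
    (pow_le_pow_right₀ one_le_two (show a + 12 * (q + 2) ^ (s + 3) ≤ _ by omega))))
    (Gb.GM.of_mas (T := V.T) (col := fun _ => ()) (W0 := full _ s) (ε := aE (s + 2))
      (v := aV _ lam) h.cl (fun μ _ => pow_pos l0 _) fun A' d =>
        mas_mono h.cl (Gb.GW_dn dn_full d) (sz A' d).toOk (sm.mas _ _ (sz A' d)))
    (aA (s + 2)) (aT (s + 2)) (fun _ => fA V (Top.zs A) α) (by simp [aA])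
    (by rintro (_ | i) hi <;> simp [aA, aT] at hi ⊢) (fun _ => f0) (fun _ => f1) (fun i _ => by
      refine le_trans ?_ (mean (s + 2) s n V.T lam b τ (η / 4) (2 ^ m) _ i hs h ok.2.1 sm n1
        (by omega) b0 hb l0 l1 f0 f1 τ0.le (by positivity) (by exact_mod_cast hl))
      have : 1 - η / 4 ≤ V.T.E (fA V (Top.zs A) α) := by rwa [E_fA, le_inv_mul_iff₀ α0, mul_comm]
      have := mul_le_mul_of_nonneg_right this (show 0 ≤ 1 - 2 * τ - η / 4 by linarith)
      nlinarith [mul_pos η0 τ0, mul_pos η0 η0])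
    (by
      refine (cnt (s + 2) s n V A lam α τ (by omega) hs ok fr α0 l0 l1 n1 (by linarith)
        (mas_mono h.cl dn_full sz0.toOk (sm.mas _ _ sz0))).trans_lt ?_
      have g0 : 0 ≤ V.g1 := Sp.gk_nonneg _ _
      have p0 : 0 ≤ (lam⁻¹ ^ (s * Fintype.card V.T.C) * ∏ l ∈ Icc 1 s, V.T.ct l) ^ (n + 2) :=
        pow_nonneg (mul_nonneg (by positivity) (prod_nonneg fun l _ => th_nonneg _ _)) _
      have := mul_le_mul_of_nonneg_right (pow_le_pow_left₀ (by positivity) αi (s + 2))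
        (mul_nonneg g0 p0)
      rw [← pow_mul] at this
      linarith)
  obtain _ | i := i
  · simp [aA] at hi
  refine ⟨i, ?_⟩
  rw [L.card_P, card_erase_of_mem hi, show #(aA (s + 2)) - 1 = s + 1 by simp [aA]] at H
  refine H.trans_eq (Eq.trans ?_ ((eqv_mono h (Gb.GW_dn dn_full Gb.Gd_dn)).E _))
  exact congrArg _ (funext fun y => prod_congr rfl fun e _ => congrArg _ (pw_mono h y _).symm)

end Crest.Agent.N49.En

end
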