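import Crest.Agent.N49.En.Defs
import Crest.Agent.N49.Rf.Twr
import Crest.Agent.N49.Tw.ConM

/-!
# Row 49 (helper62): dilations are removed by residue classes
-/

set_option autoImplicit false

open Matrix Finset

noncomputable section

namespace Crest.Agent.N49.En

open Po Tw

theorem prod_weight {τ ι R : Type} [Fintype τ] [CommMonoid R] (t : τ → R) (f : ι → τ →₀ ℕ)
    (m : ι →₀ ℕ) : (m.prod fun w k => ((f w).prod fun a j => t a ^ j) ^ k) =
      (Finsupp.weight f m).prod fun a j => t a ^ j := by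
  simp only [Finsupp.prod_pow, Finsupp.weight_apply, Finsupp.sum, Finsupp.finsetSum_apply,
    ← prod_pow_eq_pow_sum, Finsupp.smul_apply, smul_eq_mul]
  rw [prod_comm, Finsupp.prod]
  simp only [← prod_pow, ← pow_mul, mul_comm]

theorem prod_dvd {τ : Type} {t : τ → ℤ} {n : ℤ} (h : ∀ a, t a ∣ n) (μ : τ →₀ ℕ) :
    (μ.prod fun a j => t a ^ j) ∣ n ^ μ.degree := by
  rw [Finsupp.degree_apply, ← prod_pow_eq_pow_sum]
  exact prod_dvd_prod_of_dvd _ _ fun a _ => pow_dvd_pow_of_dvd (h a) _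

theorem mono_dk_ok {σ τ : Type} [DecidableEq τ] [Fintype τ] {col : τ → σ} {W : Finset (τ →₀ ℕ)}
    {ε : τ → ℤ} {v : (τ →₀ ℕ) → ℝ} (h : Dn W) (hv : ∀ μ ∈ W, 0 < v μ) :
    (Sh.mono col W ε (dk v)).Ok := by
  refine Sh.mono_ok h ?_ (Sh.dk_blk v)
  have : (Sh.mono col W ε (dk v)).K = diagonal fun w : {μ // μ ∈ W.erase 0} => v w.1 := by
    refine Matrix.ext fun (w w' : {μ // μ ∈ W.erase 0}) => ?_
    exact if_congr (Subtype.ext_iff (a1 := w) (a2 := w')).symm rfl rfl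
  rw [this]
  exact PosDef.diagonal fun w => hv _ (mem_of_mem_erase w.2)

theorem resw : RESW := by
  intro τ _ _ T W ε t v n g hT hW hv hn ht _ hg S S'
  have o : S.Ok := mono_dk_ok hW hv
  let d : S.W → ℝ := fun w => (S.ty w).prod fun a j => (t a : ℝ) ^ j
  let N : S.W → ℤ := fun w => n ^ S.dg w / chi S t w
  have hN' : ∀ w, chi S t w * N w = n ^ S.dg w := fun w => Int.mul_ediv_cancel' (prod_dvd ht _)
  have hN : ∀ w, d w * N w = (n : ℝ) ^ S.dg w := fun w => by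
    have := congrArg (Int.cast : ℤ → ℝ) (hN' w)
    simpa [d, chi, Finsupp.prod] using this
  have hd : S.Chr d := fun w m z => (prod_weight _ S.ty m).trans
    (congrArg (fun μ : τ →₀ ℕ => μ.prod fun a j => (t a : ℝ) ^ j) (Sh.mono_r_ne z))
  have hK : ∀ w w', S'.K w w' = d w / n ^ S.dg w * S.K w w' * (d w' / n ^ S.dg w') := by
    intro w w'
    change (if w.1 = w'.1 then v w.1 * (d w / n ^ S.dg w) ^ 2 else 0) =
      _ * (if w.1 = w'.1 then v w.1 else 0) * _
    split_ifs with e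
    · rw [← Subtype.ext e]; ring
    · simp
  have n0 : (n : ℝ) ≠ 0 := Nat.cast_ne_zero.2 hn.ne'
  have a := TS.adm_tw0' (st := T.lev) hT hT.tri o
  obtain ⟨r, hr⟩ := TS.tw_resp hT.cl a o hd n0 hN hK hg
  have e0 : (T.tw S (T.tw0 S)).Φ = (T.sh S).Φ :=
    funext fun p => congrArg (S.cf _ p.1.2) (TS.eval₂_tw0 _ _)
  replace hr := (congrArg (fun Φ => ((T.sh S).setΦ Φ).N g) e0).symm.trans_le hr
  refine ⟨T.trs S d n (zc r) (T.tw0 S), r, fun y p => r p + N p.1.2 * y p,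
    (a.trs hT.lev_pos d n0 _).setK S'.K, hr, fun y x F => ?_⟩
  change ∑ p : T.Cw S with p.1.1 = F, _ = ∑ p : T.Cw S with p.1.1 = F, _ +
    _ * ∑ p : T.Cw S with p.1.1 = F, chi S x p.1.2 * y p
  rw [mul_sum, ← sum_add_distrib]
  refine sum_congr rfl fun p hp => ?_
  have e : chi S (t * x) p.1.2 = chi S t p.1.2 * chi S x p.1.2 := by
    simp only [chi, Pi.mul_apply, mul_pow, Finsupp.prod_mul]
  rw [← (mem_filter.1 hp).2, TS.lev_cw, ← hN', e]
  ring

end Crest.Agent.N49.En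

end
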