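import Crest.Agent.N49.En.Defs
import Crest.Agent.N49.Tw.Ap2

/-! # Row 49 (helper29): regularity gives the hypotheses of the first step -/

set_option autoImplicit false

noncomputable section

namespace Crest.Agent.N49.En

open Po Tw TS

theorem smof : SMOF := fun s C n a η T hM hP h hs h0 h1 hR => by
  have st := h.cl.stg hs
  have hy : ∀ (τ : Type) (S : Sh Unit τ), S.Sz n a → T.Hy S T.lev (T.tw0 S) s C n a η :=
    fun τ S k => ⟨st, st.adm k.toOk, h0, h1, hR, k⟩
  refine ⟨fun τ S k => ?_, fun τ S χ k hχ hn hw => ?_⟩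
  · have := hM _ _ T S _ _ n a η (hy τ S k)
    rw [Mas, lw_Z, lw_Zc st (st.adm k.toOk) k.toOk, stg_D_lev, tw_tw0] at this
    rw [Mas, Zc, sh_D h.cl k.toOk]
    exact this
  · have := hP _ T S _ _ n a η χ (hy τ S k) hχ.mul hn hw
    have e1 : (T.tw S (T.tw0 S)).Φ = (T.sh S).Φ :=
      funext fun p => congrArg (S.cf _ p.1.2) (eval₂_tw0 _ _)
    have e2 : (fun F => MvPolynomial.map (MvPolynomial.eval fun w => (χ w : ℝ)) (T.tw0 S F)) = T.Φ :=
      funext (ev_tw0 hχ.mass)
    change ((T.sh S).setΦ (T.tw S (T.tw0 S)).Φ).Push ((T.setΦ fun F => MvPolynomial.map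
      (MvPolynomial.eval fun w => (χ w : ℝ)) (T.tw0 S F)).shr _) _ η at this
    rw [e1] at this
    exact fun g hg => by
      have := this g hg
      revert this
      rw [e2]
      exact id

end Crest.Agent.N49.En

end
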