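import Crest.Agent.N49.En.Mono
import Crest.Agent.N49.Un.Defs
import Crest.Agent.N49.Br.Vsp
import Crest.Agent.N49.Tw.ConH

/-!
# Row 49 (helper20): monomial clone grids map onto the visible ring
-/

set_option autoImplicit false
set_option linter.unusedSectionVars false

open Matrix Finset

noncomputable section

namespace Crest.Agent.N49.En

open Po Tw Br

variable {ι τ : Type} [Fintype ι] [LinearOrder ι] [Fintype τ] [DecidableEq τ] {Q s : ℕ} [NeZero Q]
  (L : Option (ι × Fin Q) → τ)

/-- the words of a clone grid -/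
def CW (s : ℕ) (ν : τ →₀ ℕ) : Prop := ν.degree ≤ s ∧ (∀ t, ν t ≠ 0 → t ∈ Set.range L) ∧
  ∀ β a a', ν (L (some (β, a))) ≠ 0 → ν (L (some (β, a'))) ≠ 0 → a = a'
/-- the letters selected by a point -/
def sel (ω : Pt ι) (o : Option (ι × Fin Q)) : Prop := ∀ p, o = some p → ω p.1 = some p.2.1
open Classical in
/-- the points -/
def xo (ω : Pt ι) (t : τ) : ℤ := if ∃ o, L o = t ∧ sel ω o then 1 else 0
/-- the transversal of a word -/
def tr (ν : τ →₀ ℕ) : Pt ι :=
  fun β => if h : ∃ a, ν (L (some (β, a))) ≠ 0 then some (h.choose : ℕ) else none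
/-- the standard words -/
def wd (u : Pt ι) (r : ℕ) : τ →₀ ℕ := Finsupp.single (L none) r +
  ∑ p : ι × Fin Q with u p.1 = some p.2.1, Finsupp.single (L (some p)) 1

variable {L} {ν : τ →₀ ℕ} {ω u : Pt ι} {β : ι} {a : Fin Q}

theorem xo_L (hL : Function.Injective L) (o : Option (ι × Fin Q)) [Decidable (sel ω o)] :
    xo L ω (L o) = if sel ω o then 1 else 0 := by
  classical
  exact if_congr ⟨fun ⟨_, e, k⟩ => hL e ▸ k, fun k => ⟨o, rfl, k⟩⟩ rfl rfl

theorem sel_some {p : ι × Fin Q} : sel ω (some p) ↔ ω p.1 = some p.2.1 :=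
  ⟨fun h => h p rfl, fun h _ e => Option.some.inj e ▸ h⟩

theorem tr_eq (h : CW L s ν) (k : ν (L (some (β, a))) ≠ 0) : tr L ν β = some (a : ℕ) := by
  rw [tr, dif_pos ⟨a, k⟩, h.2.2 β _ a (Exists.choose_spec (⟨a, k⟩ : ∃ a, ν (L (some (β, a))) ≠ 0)) k]

theorem tr_ne (k : tr L ν β ≠ none) : ∃ a, ν (L (some (β, a))) ≠ 0 :=
  of_not_not fun n => k (dif_neg n)

theorem chi_tr (hL : Function.Injective L) (h : CW L s ν) :
    (ν.prod fun t k => xo L ω t ^ k) = if Le (tr L ν) ω then 1 else 0 := by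
  classical
  split_ifs with c
  · refine prod_eq_one fun t ht => ?_
    have k := Finsupp.mem_support_iff.1 ht
    obtain ⟨o, rfl⟩ := h.2.1 t k
    beta_reduce
    rw [xo_L hL, if_pos, one_pow]
    rintro p rfl
    rw [← c p.1 (by simp [tr_eq h k]), tr_eq h k]
  · simp only [Le, not_forall] at c
    obtain ⟨β, b, c⟩ := c
    obtain ⟨a, k⟩ := tr_ne b
    refine prod_eq_zero (Finsupp.mem_support_iff.2 k) ?_
    beta_reduce
    rw [xo_L hL, if_neg fun e => c ((tr_eq h k).trans (sel_some.1 e).symm), zero_pow k]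

theorem wd_none (hL : Function.Injective L) (r : ℕ) : wd L u r (L none) = r := by
  simp [wd, hL.eq_iff]

theorem wd_some (hL : Function.Injective L) (r : ℕ) (p : ι × Fin Q) :
    wd L u r (L (some p)) = if u p.1 = some p.2.1 then 1 else 0 := by
  simp [wd, Finsupp.single_apply, hL.eq_iff]

theorem wd_out (r : ℕ) {t : τ} (h : t ∉ Set.range L) : wd L u r t = 0 := by
  have : ∀ o, L o ≠ t := fun o e => h ⟨o, e⟩
  simp [wd, this]

theorem wd_deg (hu : u ∈ grid fun _ : ι => Q) (r : ℕ) : (wd L u r).degree = r + #(bl u) := by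
  rw [wd, map_add, map_sum, Finsupp.degree_single]
  simp only [Finsupp.degree_single, sum_const, smul_eq_mul, mul_one]
  refine congrArg _ (card_bij (fun p _ => p.1) (fun p h => mem_bl.2 (by
    simp [(mem_filter.1 h).2])) (fun p h p' h' e => Prod.ext e (Fin.ext (Option.some.inj ?_)))
    fun i h => ?_)
  · rw [← (mem_filter.1 h).2, ← (mem_filter.1 h').2, e]
  · obtain ⟨b, e⟩ := Option.ne_none_iff_exists'.1 (mem_bl.1 h)
    exact ⟨(i, ⟨b, mem_grid.1 hu i b e⟩), mem_filter.2 ⟨mem_univ _, e⟩, rfl⟩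

theorem wd_cw (hL : Function.Injective L) {r : ℕ} (h : (wd L u r).degree ≤ s) :
    CW L s (wd L u r) := by
  refine ⟨h, fun t k => of_not_not fun n => k (wd_out r n), fun β a a' k k' => ?_⟩
  rw [wd_some hL] at k k'
  exact Fin.ext (Option.some.inj ((of_not_not fun n => k (if_neg n)).symm.trans
    (of_not_not fun n => k' (if_neg n))))

theorem tr_wd (hL : Function.Injective L) (hu : u ∈ grid fun _ : ι => Q) (r : ℕ) :
    tr L (wd L u r) = u := by
  funext β
  cases e : u β with
  | none => exact dif_neg fun ⟨a, k⟩ => k (by rw [wd_some hL, if_neg (by simp [e])])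
  | some b => exact tr_eq (a := ⟨b, mem_grid.1 hu β b e⟩) (wd_cw hL le_rfl) (by simp [wd_some hL, e])

theorem tr_grid : tr L ν ∈ grid fun _ : ι => Q := mem_grid.2 fun β b e => by
  unfold tr at e
  split_ifs at e with c
  exact Option.some.inj e ▸ Fin.is_lt _

theorem eq_wd (hL : Function.Injective L) (h : CW L s ν) (k : ∀ p, ν (L (some p)) ≤ 1) :
    ν = wd L (tr L ν) (ν (L none)) := by
  ext t
  by_cases c : t ∈ Set.range L
  · obtain ⟨_ | p, rfl⟩ := c
    · rw [wd_none hL]
    · rw [wd_some hL]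
      split_ifs with e
      · obtain ⟨a, b⟩ := tr_ne (β := p.1) (ν := ν) (L := L) (by simp [e])
        have : a = p.2 := Fin.ext (Option.some.inj ((tr_eq h b).symm.trans e))
        have := k p
        subst a
        change ν (L (some p)) ≠ 0 at b
        omega
      · exact of_not_not fun n => e (tr_eq h n)
  · rw [wd_out _ c]
    exact of_not_not fun n => c (h.2.1 t n)

theorem card_tr (hL : Function.Injective L) : #(bl (tr L ν)) ≤ ν.degree := by
  refine le_trans (Nat.le_add_left _ 0) ((wd_deg (L := L) tr_grid 0).ge.trans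
    (Finsupp.degree_mono fun t => ?_))
  by_cases c : t ∈ Set.range L
  · obtain ⟨_ | p, rfl⟩ := c
    · rw [wd_none hL]; exact Nat.zero_le _
    · rw [wd_some hL]
      split_ifs with e
      · unfold tr at e
        split_ifs at e with c
        have := c.choose_spec
        rw [Fin.ext (Option.some.inj e)] at this
        exact Nat.pos_of_ne_zero this
      · exact Nat.zero_le _
  · rw [wd_out _ c]; exact Nat.zero_le _

theorem co_std {q : ι → ℕ} (w w' : Vw s q) : co w w'.tr = if w.tr = w'.tr then 1 else 0 := by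
  simp only [funext_iff]
  rw [co, ← Fintype.prod_boole]
  refine prod_congr rfl fun i _ => ?_
  have := w'.2.1 i
  unfold cc
  split_ifs <;> simp_all [Vw.tr]

theorem sum_xo (hL : Function.Injective L) (h : ω ∈ pts fun _ : ι => Q) (β : ι) :
    ∑ a, xo L ω (L (some (β, a))) = 1 := by
  classical
  obtain ⟨b, hb, e⟩ := mem_pts.1 h β
  simp only [xo_L hL, sel_some, e]
  rw [Fintype.sum_eq_single ⟨b, hb⟩ fun a n => if_neg fun k => n (Fin.ext (Option.some.inj k).symm),
    if_pos rfl]

theorem xo_none (hL : Function.Injective L) : xo L ω (L none) = 1 := by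
  classical
  rw [xo_L hL, if_pos (show sel ω none from fun _ e => nomatch e)]

/-- **monomial clone grids map onto the visible ring** -/
theorem vm_mono (hL : Function.Injective L) {W : Finset (τ →₀ ℕ)} (hW : ∀ ν, ν ∈ W ↔ CW L s ν)
    {ε : τ → ℤ} (hε : ∀ ω ∈ pts fun _ : ι => Q, ∑ t, ε t * xo L ω t = 1)
    {Kw : (τ →₀ ℕ) → (τ →₀ ℕ) → ℝ} (o : (Sh.mono (fun _ => ()) W ε Kw).Ok) (hs : 1 ≤ s) {n : ℕ}
    (hn : #W ≤ n) (K : Matrix (Vw s fun _ : ι => Q) (Vw s fun _ : ι => Q) ℝ) :
    Un.Vm (Sh.mono (fun _ => ()) W ε Kw) (fun ω => chi _ (xo L ω)) (vis s (fun _ => Q) K) cv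
      (pts fun _ => Q) n := by
  classical
  set S := Sh.mono (fun _ => ()) W ε Kw
  have cw : ∀ w : Sh.MW W, CW L s w.1 := fun w => (hW _).1 w.mem
  have q0 : ∀ _ : ι, 0 < Q := fun _ => NeZero.pos Q
  let φ : Matrix (Vw s fun _ : ι => Q) S.W ℤ :=
    Matrix.of fun w' w => if w'.lv = w.1.degree then co w' (tr L w.1) else 0
  have hl : ∀ w' w, φ w' w ≠ 0 → w'.lv = S.dg w := fun w' w h => of_not_not fun n => h (if_neg n)
  have pt : ∀ ω ∈ pts fun _ : ι => Q, cv ω ᵥ* φ = chi S (xo L ω) := fun ω h => funext fun w =>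
    (sum_co h (o.dg_pos w) (cw w).1 (card_tr hL)).trans (chi_tr hL (cw w)).symm
  have dg : ∀ w : Vw s fun _ : ι => Q, (wd L w.tr (w.lv - #(bl w.tr))).degree = w.lv := fun w =>
    (wd_deg w.1.2.2 _).trans (Nat.sub_add_cancel w.2.2)
  let f : (Vw s fun _ : ι => Q) → S.W := fun w => ⟨wd L w.tr (w.lv - #(bl w.tr)), mem_erase.2
    ⟨fun e => Nat.succ_ne_zero _ ((dg w).symm.trans (by rw [e, map_zero])),
      (hW _).2 (wd_cw hL ((dg w).trans_le (Vs.lv_le w)))⟩⟩
  have e' : ∀ a b, φ a (f b) = if a = b then 1 else 0 := fun a b => by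
    change (if a.lv = (wd L b.tr _).degree then co a (tr L (wd L b.tr _)) else 0) = _
    rw [dg, tr_wd (u := b.tr) hL b.1.2.2, co_std, ← ite_and]
    exact if_congr ⟨fun k => Vs.ext' k.1 k.2, fun k => k ▸ ⟨rfl, rfl⟩⟩ rfl rfl
  have e : φ * (Matrix.of fun w w' => if w = f w' then (1 : ℤ) else 0) = 1 := by
    ext a b
    simp [mul_apply, e', one_apply]
  have fi : Function.Injective f := fun a b k => of_not_not fun n => by
    have := e' a b
    rw [← k, e', if_pos rfl, if_neg n] at this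
    exact one_ne_zero this
  have w0 : 0 ∈ W := (hW _).2 ⟨by simp, by simp, by simp⟩
  have cn : 1 + Fintype.card (Vw s fun _ : ι => Q) * (1 * 1) ≤ n := by
    have := Fintype.card_le_of_injective f fi
    rw [show Fintype.card S.W = #(W.erase 0) from Fintype.card_coe _, card_erase_of_mem w0] at this
    have := card_pos.2 ⟨_, w0⟩
    omega
  have hm : ∀ K', S.Hm (vis s (fun _ => Q) K') φ := fun K' => hm_of_pts o q0 hl fun _ ω h => by
    rw [pt ω h]
    refine Sh.mono_pt hs (fun μ a b => (hW _).2 ⟨a, fun t k => ?_, fun β x x' k k' => ?_⟩) (hε ω h)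
    · obtain ⟨o, e, -⟩ : ∃ o, L o = t ∧ sel ω o := of_not_not fun n => b
        (prod_eq_zero (Finsupp.mem_support_iff.2 k) (by beta_reduce; rw [xo, if_neg n, zero_pow k]))
      exact ⟨o, e⟩
    · have z : ∀ x, μ (L (some (β, x))) ≠ 0 → ω β = some (x : ℕ) := fun x k => of_not_not fun n =>
        b (prod_eq_zero (Finsupp.mem_support_iff.2 k) (by
          beta_reduce; rw [xo_L hL, if_neg (mt sel_some.1 n), zero_pow k]))
      exact Fin.ext (Option.some.inj ((z x k).symm.trans (z x' k')))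
  have ok : (vis s (fun _ : ι => Q) (rl φ * S.K * (rl φ)ᵀ)).Ok := by
    refine vis_ok ?_ fun w w' k => ?_
    · refine o.pd.mul_mul_conjTranspose_same (Function.LeftInverse.injective
        (g := fun x => x ᵥ* rl (Matrix.of fun w w' => if w = f w' then (1 : ℤ) else 0)) fun x => ?_)
      have := congrArg rl e
      rw [rl_mul, rl_one] at this
      simp only [vecMul_vecMul, this, vecMul_one]
    · simp only [mul_apply] at k
      obtain ⟨x, -, k⟩ := exists_ne_zero_of_sum_ne_zero k
      obtain ⟨y, -, k'⟩ := exists_ne_zero_of_sum_ne_zero (left_ne_zero_of_mul k)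
      rw [hl w y (Int.cast_ne_zero.1 (left_ne_zero_of_mul k')),
        hl w' x (Int.cast_ne_zero.1 (right_ne_zero_of_mul k)), ← Sh.cd_degree, ← Sh.cd_degree,
        o.blk _ _ (right_ne_zero_of_mul k')]
  have h1 : ∀ w w', |(Matrix.of fun w w' => if w = f w' then (1 : ℤ) else 0) w w'| ≤ (1 : ℕ) :=
    fun w w' => by simp only [of_apply]; split_ifs <;> simp
  have h2 : ∀ w' w, |φ w' w| ≤ (1 : ℕ) := fun w' w => by
    simp only [φ, of_apply]; split_ifs
    exacts [abs_co _ _, by simp]
  have n1 : ((1 : ℕ) : ℤ) ≤ n := by exact_mod_cast (by omega)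
  refine ⟨φ, _, _, inferInstance, inferInstance, _, _, _, spl_of (S' := vis s (fun _ : ι => Q)
    (rl φ * S.K * (rl φ)ᵀ)) (· ∈ Set.range f) o ok (hm _) rfl e (fun w w' k => ?_)
    (inj_of_word (S' := vis s (fun _ : ι => Q) K) f e) h1 h2 (by omega) (by omega) cn
    fun κ l h0 h => ?_, pt, fun w' w => ⟨(h2 _ _).trans n1, (h1 _ _).trans n1⟩⟩
  · obtain rfl : w = f w' := of_not_not fun n => k (if_neg n)
    exact ⟨⟨w', rfl⟩, by rw [vis_cd, cd_unit]; exact congrArg _ (dg w')⟩
  let k : (τ →₀ ℕ) → ℤ := fun μ => ∑ w : Sh.MW W, κ w * if μ = w.1 then 1 else 0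
  have k0 : ∀ μ, μ ∉ W → k μ = 0 := fun μ n => sum_eq_zero fun w _ => by
    rw [if_neg fun e : μ = w.1 => n (e ▸ w.mem), mul_zero]
  have k1 : ∀ w : Sh.MW W, k w.1 = κ w := fun w =>
    (Fintype.sum_eq_single w fun x n => by rw [if_neg fun e => n (Subtype.ext e).symm, mul_zero]).trans
      (by rw [if_pos rfl, mul_one])
  have k2 : ∀ (x : S.W) (lam : Fin l → S.W), ∑ w, κ w * S.r w (Finsupp.single x 1 +
      ∑ i, Finsupp.single (lam i) 1) = k (x.1 + ∑ i, (lam i).1) := fun x lam => by
    change k (Finsupp.weight (fun w : S.W => w.1) _) = _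
    simp only [map_add, map_sum, Finsupp.weight_single, one_smul]
  have l1 : ∀ x, Finsupp.single (L x) 1 ∈ W.erase 0 := fun x => mem_erase.2 ⟨by simp, (hW _).2
    ⟨by simpa using hs, fun t z => ⟨x, of_not_not fun n => z (Finsupp.single_eq_of_ne' n)⟩,
      fun β a a' z z' => by
        have := hL (Finsupp.single_apply_ne_zero.1 z).1
        rw [← hL (Finsupp.single_apply_ne_zero.1 z').1] at this
        simpa using this⟩⟩
  have rel : ∀ ν ∈ W, ν.degree = l → ∀ β, ∑ a, k (Finsupp.single (L (some (β, a))) 1 + ν) =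
      k (Finsupp.single (L none) 1 + ν) := fun ν hν d β => by
    obtain ⟨lam, d1, rfl⟩ : ∃ lam : Fin l → S.W, (∀ i, S.dg (lam i) = 1) ∧ ∑ i, (lam i).1 = ν := by
      obtain ⟨g, rfl⟩ := ex_letters l ν d
      refine ⟨fun i => ⟨Finsupp.single (g i) 1, mem_erase.2 ⟨by simp, (hW _).2 ?_⟩⟩,
        fun i => Finsupp.degree_single _ _, rfl⟩
      have c := (hW _).1 hν
      have z : ∀ t, Finsupp.single (g i) 1 t ≠ 0 → (∑ i, Finsupp.single (g i) 1 : τ →₀ ℕ) t ≠ 0 :=
        fun t z => ((Nat.pos_of_ne_zero z).trans_le (Finsupp.le_def.1 (single_le_sum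
          (f := fun i => Finsupp.single (g i) 1) (fun _ _ => zero_le) (mem_univ i)) t)).ne'
      exact ⟨by simpa using hs, fun t a => c.2.1 t (z t a),
        fun β a a' b b' => c.2.2 β a a' (z _ b) (z _ b')⟩
    let lw : Option (ι × Fin Q) → S.W := fun x => ⟨_, l1 x⟩
    let v : S.W → ℤ := fun w => (∑ a, if w = lw (some (β, a)) then 1 else 0) -
      if w = lw none then 1 else 0
    have sv : ∀ G : S.W → ℤ, ∑ w, v w * G w = ∑ a, G (lw (some (β, a))) - G (lw none) :=
      fun G => by
        simp only [v, sub_mul, sum_sub_distrib, sum_mul, ite_mul, one_mul, zero_mul]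
        rw [sum_comm]; simp
    have v1 : ∀ w, v w ≠ 0 → S.dg w = 1 := fun w z => of_not_not fun n => z (by
      have : ∀ x, w ≠ lw x := fun x e => n (by rw [e]; exact Finsupp.degree_single _ _)
      simp [v, this])
    have := h v lam v1 (vis_ind q0 (j := 1) (fun w z => ?_) fun ω hω => ?_) d1
    · simp only [mul_sum, mul_left_comm (κ _)] at this
      rw [sum_comm] at this
      simp only [← mul_sum, k2] at this
      exact sub_eq_zero.1 ((sv _).symm.trans this)
    · obtain ⟨x, -, z⟩ := exists_ne_zero_of_sum_ne_zero z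
      rw [hl _ _ (left_ne_zero_of_mul z), v1 _ (right_ne_zero_of_mul z)]
    · rw [dotProduct_mulVec, pt ω hω, dotProduct_comm, dotProduct, sv]
      simp [chi, S, lw, Sh.mono, sum_xo hL hω, xo_none hL]
  let mz : τ → ℕ := fun t => if t = L none then 0 else if ∃ β, t = L (some (β, 0)) then 2 else 1
  have m0 : mz (L none) = 0 := if_pos rfl
  have m1 : ∀ β a, mz (L (some (β, a))) = if a = 0 then 2 else 1 := fun β a => by
    simp [mz, hL.eq_iff]
  have key : ∀ N, ∀ μ : τ →₀ ℕ, Finsupp.weight mz μ = N → μ.degree = l + 1 → k μ = 0 := fun N => by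
    induction N using Nat.strong_induction_on with
    | _ N ih =>
    intro μ hN d
    by_cases c : μ ∈ W
    swap
    · exact k0 μ c
    have cμ := (hW _).1 c
    by_cases st : ∀ β a, μ (L (some (β, a))) ≠ 0 → a ≠ 0 ∧ μ (L (some (β, a))) = 1
    · have a := eq_wd hL cμ fun p => of_not_not fun n => n (st p.1 p.2 (by
        change μ (L (some p)) ≠ 0; omega)).2.le
      have b := wd_deg (L := L) (tr_grid (L := L) (ν := μ)) (μ (L none))
      rw [← a] at b
      obtain ⟨w, e1, e2⟩ := Vs.exists_vw (k := l + 1) (by omega) (d ▸ cμ.1) tr_grid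
        (fun β z => by
          obtain ⟨x, y⟩ := tr_ne (L := L) (ν := μ) (β := β) (by simp [z])
          exact (st β x y).1 (Fin.ext (by simpa [tr_eq cμ y] using z))) (d ▸ card_tr hL)
      have : (f w).1 = μ := by
        change wd L w.tr (w.lv - #(bl w.tr)) = μ
        rw [e1, e2, show l + 1 - #(bl (tr L μ)) = μ (L none) by omega, ← a]
      rw [← this, k1, h0 _ ⟨w, rfl⟩]
    push Not at st
    obtain ⟨β, a, z, st⟩ := st
    have sp := split_letter z
    set ν := μ - Finsupp.single (L (some (β, a))) 1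
    have dν : ν.degree = l := by
      rw [← sp, map_add, Finsupp.degree_single] at d; omega
    have le : ∀ t, ν t ≠ 0 → μ t ≠ 0 := fun t y => by rw [← sp, Finsupp.add_apply]; omega
    have r := rel ν ((hW _).2 ⟨by have := cμ.1; omega, fun t y => cμ.2.1 t (le t y),
      fun β x x' y y' => cμ.2.2 β x x' (le _ y) (le _ y')⟩) dν β
    have I : ∀ x, mz (L x) < mz (L (some (β, a))) → k (Finsupp.single (L x) 1 + ν) = 0 :=
      fun x y => ih _ (by
        rw [← hN, ← sp, map_add, map_add, Finsupp.weight_single, Finsupp.weight_single, one_smul,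
          one_smul]
        omega) _ rfl (by rw [map_add, Finsupp.degree_single, dν, add_comm])
    rwa [I none (by rw [m0, m1]; split_ifs <;> omega), Fintype.sum_eq_single a fun x n => ?_,
      sp] at r
    by_cases a0 : a = 0
    · exact I _ (by rw [m1, m1, if_pos a0, if_neg (a0 ▸ n)]; omega)
    · refine k0 _ fun y => n (((hW _).1 y).2.2 β x a (by simp) ?_)
      have := st a0
      rw [← sp, Finsupp.add_apply, Finsupp.single_eq_same] at this
      rw [Finsupp.add_apply]; omega
  exact fun w d => (k1 w).symm.trans (key _ _ rfl d)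

end Crest.Agent.N49.En

end
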