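import Crest.Agent.N49.En.L1d
import Crest.Agent.N49.En.Vm
import Crest.Agent.N49.En.L0
import Crest.Agent.N49.En.CntA
import Crest.Agent.N49.En.Resw
import Crest.Agent.N49.En.Smof
import Crest.Agent.N49.Tw.Mast0

/-!
# Row 49 (helper20): the first step reaches a twisted law with visible points
-/

set_option autoImplicit false

open Matrix Finset Nat

noncomputable section

namespace Crest.Agent.N49.En

open Po Tw Br

section
variable {s q : ℕ} (i : Fin (s + 2))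

variable (q) in
/-- the letters of the face `i` -/
def Lf (o : Option (Fin (s + 1) × Fin (q + 2))) : Option (Fin (s + 2)) × Fin (q + 2) :=
  o.elim (none, 0) fun p => (some (i.succAbove p.1), p.2)
/-- the point of the grid -/
def om (e : Option (Fin (s + 2)) → Fin (q + 2)) : Pt (Fin (s + 1)) :=
  fun β => some (e (some (i.succAbove β))).1
variable (q) in
/-- the dilations -/
def tf (p : Option (Fin (s + 2)) × Fin (q + 2)) : ℤ := if p.1 = some i then 1 else aT _ i p.1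

theorem Lf_inj : Function.Injective (Lf q i) := by
  rintro (_ | ⟨a, b⟩) (_ | ⟨a', b'⟩) h <;> simp_all [Lf]

theorem mem_U {o : Option (Fin (s + 2))} : o ∉ (aA (s + 2)).erase i ↔ o = none ∨ o = some i := by
  cases o <;> simp [aA]

theorem range_Lf {o : Option (Fin (s + 2))} {a : Fin (q + 2)} :
    (o, a) ∈ Set.range (Lf q i) ↔ o ≠ some i ∧ (o = none → a = 0) := by
  refine ⟨?_, fun h => ?_⟩
  · rintro ⟨_ | p, e⟩ <;> obtain ⟨rfl, rfl⟩ := Prod.mk.inj e <;> simp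
  · cases o with
    | none => exact ⟨none, by rw [h.2 rfl]; rfl⟩
    | some j =>
      obtain ⟨β, rfl⟩ := Fin.exists_succAbove_eq (show j ≠ i from fun e => h.1 (congrArg _ e))
      exact ⟨some (β, a), rfl⟩

theorem mem_gW (ν : Option (Fin (s + 2)) × Fin (q + 2) →₀ ℕ) :
    ν ∈ Gb.GW (full _ s) (Gb.Gd (some i) ((aA (s + 2)).erase i)) ↔ CW (Lf q i) s ν := by
  refine ⟨fun h => ?_, fun h => ?_⟩
  · obtain ⟨⟨μ, e⟩, hp, rfl⟩ := mem_image.1 h
    obtain ⟨h1, -, h3, h4⟩ := Gb.mem_IW.1 hp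
    have z : ∀ o a, Gb.lift e μ (o, a) ≠ 0 → a = e o ∧ μ o ≠ 0 := fun o a k => by
      rw [Gb.lift_apply] at k
      split_ifs at k with c
      exacts [⟨c, k⟩, absurd rfl k]
    refine ⟨(degree_col _ _).trans_le (mem_full.1 h1), fun ⟨o, a⟩ k => (range_Lf i).2
      ⟨fun c => h3 (Finsupp.mem_support_iff.2 (c ▸ (z o a k).2)), fun c => ?_⟩,
      fun β a a' k k' => (z _ _ k).1.trans (z _ _ k').1.symm⟩
    rw [(z o a k).1]
    exact L.mem_P.1 h4 o ((mem_U i).2 (.inl c))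
  · have r : ∀ o a, ν (o, a) ≠ 0 → o ≠ some i ∧ (o = none → a = 0) := fun o a k =>
      (range_Lf i).1 (h.2.1 _ k)
    have u : ∀ o a, ν (o, a) ≠ 0 → a = Gb.un ν o := fun o a k => by
      have c : ∃ l, ν (o, l) ≠ 0 := ⟨a, k⟩
      rw [Gb.un, dif_pos c]
      obtain ⟨_ | p, e⟩ := h.2.1 _ k <;> obtain ⟨rfl, rfl⟩ := Prod.mk.inj e
      · exact ((r _ _ c.choose_spec).2 rfl).symm
      · exact h.2.2 p.1 _ _ k c.choose_spec
    have p : Gb.un ν ∈ L.P q ((aA (s + 2)).erase i) := L.mem_P.2 fun o k => by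
      unfold Gb.un
      split_ifs with c
      · exact (r _ _ c.choose_spec).2 (((mem_U i).1 k).resolve_right (r _ _ c.choose_spec).1)
      · rfl
    have inj : Function.Injective fun j => (j, Gb.un ν j) := fun _ _ k => congrArg Prod.fst k
    have a : Gb.lift (Gb.un ν) (ν.comapDomain _ inj.injOn) = ν :=
      Finsupp.mapDomain_comapDomain _ inj _ fun x hx =>
        ⟨x.1, Prod.ext rfl (u _ _ (Finsupp.mem_support_iff.1 hx)).symm⟩
    rw [← a, Gb.lift_mem (S := univ.erase (some i)) Gb.Gd_dn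
      (L.P_mono (erase_subset_erase _ (subset_univ _)) p) ⟨notMem_erase _ _, p⟩ fun o k =>
        mem_erase.2 ⟨(r o _ (Finsupp.mem_support_iff (f := ν.comapDomain _ inj.injOn).1 k)).1, mem_univ _⟩, mem_full,
      ← degree_col fun j => (j, Gb.un ν j)]
    exact (congrArg _ a).trans_le h.1

theorem tf_xo {e : Option (Fin (s + 2)) → Fin (q + 2)} (h : e ∈ L.P q ((aA (s + 2)).erase i)) :
    tf q i * xo (Lf q i) (om i e) = Gb.tv (aT _ i) e := by
  classical
  funext ⟨o, a⟩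
  by_cases c : (o, a) ∈ Set.range (Lf q i)
  · obtain ⟨_ | p, k⟩ := c <;> rw [← k, Pi.mul_apply, xo_L (Lf_inj i)]
    · simp [tf, Lf, sel, Gb.tv, L.mem_P.1 h none ((mem_U i).2 (.inl rfl))]
    · by_cases z : p.2 = e (some (i.succAbove p.1)) <;>
        simp [tf, Lf, sel_some, Gb.tv, om, Fin.val_inj, eq_comm (b := p.2), z]
  · rw [Pi.mul_apply, xo, if_neg fun ⟨x, k, _⟩ => c ⟨x, k⟩, mul_zero, Gb.tv]
    rw [range_Lf, not_and_or, not_not, Classical.not_imp] at c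
    rcases c with rfl | ⟨rfl, c⟩
    · simp [aT]
    · rw [if_neg (by rwa [L.mem_P.1 h none ((mem_U i).2 (.inl rfl))])]

theorem prod_om (g : Pt (Fin (s + 1)) → ℝ) :
    ∏ e ∈ L.P q ((aA (s + 2)).erase i), g (om i e) = ∏ ω ∈ pts fun _ => q + 2, g ω := by
  refine prod_nbij (om i) (fun e _ => mem_pts.2 fun β => ⟨_, Fin.is_lt _, rfl⟩)
    (fun e he e' he' k => funext fun o => ?_) (fun ω h => ?_) fun _ _ => rfl
  · by_cases c : o ∈ (aA (s + 2)).erase i
    · obtain ⟨_ | p, z⟩ := (range_Lf i (q := q) (a := 1)).2 ⟨(mem_erase.1 c).1, fun z => by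
        simp [z, aA] at c⟩ <;> obtain ⟨rfl, z⟩ := Prod.mk.inj z
      · simp [aA] at c
      · exact Fin.ext (Option.some.inj (congrFun k p.1))
    · rw [L.mem_P.1 he o c, L.mem_P.1 he' o c]
  · choose a ha e using mem_pts.1 h
    refine ⟨fun o => o.elim 0 (i.insertNth 0 fun β => ⟨a β, ha β⟩), L.mem_P.2 fun o k => ?_,
      funext fun β => ?_⟩
    · rcases (mem_U i).1 k with rfl | rfl <;> simp
    · simp [om, e]

theorem tf_dvd (p : Option (Fin (s + 2)) × Fin (q + 2)) : tf q i p ∣ ((s + 2)! : ℕ) ∧ tf q i p ≠ 0 := by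
  obtain ⟨_ | j, a⟩ := p
  · simp [tf, aT]
  by_cases c : j = i
  · simp [tf, c]
  have z : (j : ℤ) - (i : ℕ) ≠ 0 := sub_ne_zero.2 fun e => c (Fin.ext (by exact_mod_cast e))
  simp only [tf, aT, Option.some.injEq, c, if_false, Option.elim_some]
  refine ⟨Int.natAbs_dvd.1 (Int.natCast_dvd_natCast.2 (dvd_factorial (Int.natAbs_pos.2 z) ?_)), z⟩
  have := j.2; have := i.2; omega

end

theorem E_of_N {σ σ' : Type} {T : TS σ} {T' : TS σ'} (h : T.Tri) (h' : T'.Tri) {τ x : ℝ}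
    (m : T.Mas τ) (m' : T'.Mas τ) {g : (T.C → ℤ) → ℝ} {g' : (T'.C → ℤ) → ℝ} (k : T.N g ≤ T'.N g')
    (H : x ≤ T.E g) (x0 : 0 ≤ x) (τ0 : 0 ≤ τ) (τ1 : τ ≤ 1 / 2) : x * (1 - 2 * τ) ≤ T'.E g' := by
  have z1 := h.Z_pos
  have z2 := h'.Z_pos
  have y1 := h.Zc_pos
  have y2 := h'.Zc_pos
  rw [TS.E, le_div_iff₀ z1] at H
  rw [TS.N, TS.N, div_le_div_iff₀ y1 y2] at k
  rw [TS.E, le_div_iff₀ z2]
  refine le_of_mul_le_mul_right (le_trans ?_ ((mul_le_mul_of_nonneg_right H y2.le).trans k)) y1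
  have e2 : T'.Z ≤ (1 + τ) * T'.Zc := by linarith [(abs_le.1 m').2]
  have e3 : (1 - τ) * T.Zc ≤ T.Z := by linarith [(abs_le.1 m).1]
  refine (mul_le_mul_of_nonneg_right (mul_le_mul_of_nonneg_left e2 (mul_nonneg x0 (by linarith)))
    y1.le).trans (le_trans ?_ (mul_le_mul_of_nonneg_right (mul_le_mul_of_nonneg_left e3 x0) y2.le))
  nlinarith [mul_nonneg (mul_nonneg (mul_pos y1 y2).le (mul_nonneg τ0 τ0)) x0]

theorem fA_res {V : Ctr} {s : ℕ} (h : V.Ok s) (A : Finset ℕ) (α : ℝ) {n : ℤ} {p r z : V.T.C → ℤ}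
    (e : ∀ F, p F = r F + n ^ V.T.lev F * z F) :
    fA V (Top.zs A) α p = Top.fA ⟨V.T, n • V.π, V.c + V.π ⬝ᵥ r⟩ A α z := by
  have : V.x p = V.c + V.π ⬝ᵥ r + (n • V.π) ⬝ᵥ z := by
    rw [Ctr.x, add_assoc, dotProduct, dotProduct, dotProduct, ← sum_add_distrib]
    refine congrArg _ (sum_congr rfl fun F _ => ?_)
    by_cases z : V.π F = 0
    · simp [z]
    · rw [e, h.2.2 F z, pow_one, Pi.smul_apply, smul_eq_mul]; ring
  change _ = (Top.zs A).indicator 1 (V.c + V.π ⬝ᵥ r + (n • V.π) ⬝ᵥ z) / α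
  rw [fA, ← this]
  split_ifs with c <;> simp [c]

theorem l1 (mean : MEAN) : L1 := fun s hs => by
  obtain ⟨c0, η, a, j, c1, c2, η0, η1, H⟩ := l0 mean cnt' s hs
  obtain ⟨a0, ha0⟩ := exists_pow_lt_of_lt_one (show 0 < (c0 - 1) / 8 by linarith)
    (show (1 / 2 : ℝ) < 1 by norm_num)
  refine ⟨(1 + c0) / 2, η, a + a0, j, by linarith, η0, η1,
    fun C m q n V A lam α τ b ma pt ev hq ok fr hα den l0 l1 hl τ0 hτ hn rg hb hc => ?_⟩
  have h := ok.1
  have τ1 : τ ≤ (c0 - 1) / 8 := (hτ.trans (one_div_le_one_div_of_le (by positivity)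
    (pow_le_pow_right₀ one_le_two (show a0 ≤ _ by omega)))).trans (by
      rw [← _root_.one_div_pow]; exact ha0.le)
  have k1 : (1 : ℝ) ≤ (s + 2)! := by exact_mod_cast factorial_pos _
  have sm := smof s C n b τ V.T ma pt h ok.2.1 τ0 (by linarith) rg
  have b1 : (lam / (s + 2)!) ^ (2 * s) ≤ lam ^ (2 * s) :=
    pow_le_pow_left₀ (by positivity) (div_le_self l0.le k1) _
  obtain ⟨i, H⟩ := H m q n V A lam α τ b ev hq ok fr hα den l0 l1 hl τ0 (hτ.trans
    (one_div_le_one_div_of_le (by positivity) (pow_le_pow_right₀ one_le_two (by omega)))) hn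
    rg.pos (hb.trans b1) sm hc
  have dn : Dn (Gb.GW (q := q) (full _ s) (Gb.Gd (some i) ((aA (s + 2)).erase i))) :=
    Gb.GW_dn dn_full Gb.Gd_dn
  have cW : #(Gb.GW (q := q) (full _ s) (Gb.Gd (some i) ((aA (s + 2)).erase i))) ≤ n :=
    (card_le_card (t := full _ s) fun ν k => mem_full.2 ((mem_gW i ν).1 k).1).trans
      ((card_full _ s).trans (by simpa using hn))
  have lo : ∀ ν ∈ Gb.GW (q := q) (full _ s) (Gb.Gd (some i) ((aA (s + 2)).erase i)),
      lam ^ (2 * s) ≤ aV _ lam (ν.mapDomain Prod.fst) := fun ν k =>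
    aV_lo l0 l1 (Gb.mem_IW.1 (Gb.mem_GW.1 k).1).1
  have α0 : 0 < α := lt_of_lt_of_le (by positivity) hα
  have f0 : ∀ y, 0 ≤ fA V (Top.zs A) α y ∧ fA V (Top.zs A) α y ≤ α⁻¹ := fun y => by
    unfold fA; split_ifs <;> simp [α0.le]
  obtain ⟨Ψ, r, em, ad, hN, he⟩ := resw _ V.T _ (aE (s + 2) ∘ Prod.fst) (tf q i)
    (fun ν => aV _ lam (ν.mapDomain Prod.fst)) (s + 2)!
    (fun y => ∏ e ∈ L.P q ((aA (s + 2)).erase i), fA V (Top.zs A) α
      (V.T.pw (gS (s + 2) s q i fun ν => aV _ lam (ν.mapDomain Prod.fst))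
        (chi _ (Gb.tv (aT _ i) e)) y)) h dn (fun ν _ => pow_pos l0 _) (factorial_pos _)
    (fun p => (tf_dvd i p).1) (by rintro ⟨_ | j, a⟩ <;> simp [aE, tf, aT])
    (.of (B := α⁻¹ ^ #(L.P q ((aA (s + 2)).erase i))) fun y => by
      rw [Real.norm_of_nonneg (prod_nonneg fun _ _ => (f0 _).1), ← prod_const]
      exact prod_le_prod (fun _ _ => (f0 _).1) fun _ _ => (f0 _).2)
  have sz := L0k.msz (aE (s + 2) ∘ Prod.fst) dn cW rg.pos fun ν k => hb.trans (b1.trans (lo ν k))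
  have sz' := L0k.msz (aE (s + 2) ∘ Prod.fst) (a := (lam / (s + 2)!) ^ (2 * s))
    (v := fun μ => aV _ lam (μ.mapDomain Prod.fst) *
      ((μ.prod fun a j => (tf q i a : ℝ) ^ j) / (((s + 2)! : ℕ) : ℝ) ^ μ.degree) ^ 2) dn cW
    (by positivity) fun ν k => by
      rw [div_pow, div_eq_mul_inv, div_pow, div_eq_mul_inv _ (_ ^ 2)]
      refine mul_le_mul (lo ν k) (le_trans ?_ (le_mul_of_one_le_left (by positivity) ?_))
        (by positivity) (pow_pos l0 _).le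
      · rw [← pow_mul]
        exact inv_anti₀ (by positivity) (pow_le_pow_right₀ k1 (by
          have := ((mem_gW i ν).1 k).1; omega))
      · rw [one_le_sq_iff_one_le_abs, Finsupp.prod, abs_prod]
        refine one_le_prod fun p _ => ?_
        rw [abs_pow]
        exact one_le_pow₀ (by exact_mod_cast Int.one_le_abs (tf_dvd i p).2)
  have st := h.cl.stg ok.2.1
  have hy : V.T.Hy _ V.T.lev Ψ s C n b τ := ⟨st, ad, τ0, by linarith, rg, sz'.mono le_rfl hb⟩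
  have m2 : (V.T.tw _ Ψ).Mas τ := mas_of (TS.lw_Z (st := V.T.lev)).symm (by
    rw [TS.lw_Zc st ad sz'.toOk, TS.stg_D_lev, ← TS.tw_D h.cl ad sz'.toOk]; rfl)
    (ma _ _ _ _ _ Ψ n b τ hy)
  refine ⟨_, _, fun ω => chi _ (xo (Lf q i) ω), Ψ, fun ω => V.c + V.π ⬝ᵥ V.T.pw _
    (chi _ (tf q i * xo (Lf q i) ω)) r, sz', ad, vm_mono (Lf_inj i) (mem_gW i) (fun ω _ => ?_)
    sz'.toOk hs cW 1, ?_⟩
  · classical
    rw [Fintype.sum_eq_single (Lf q i none) fun ⟨o, a⟩ n => ?_, xo_none (Lf_inj i)]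
    · rfl
    · cases o with
      | some j => exact zero_mul _
      | none =>
        rw [xo, if_neg fun ⟨x, k, _⟩ => n (by rw [((range_Lf i).1 ⟨x, k⟩).2 rfl]; rfl), mul_zero]
  have p1 : 1 ≤ c0 ^ (q + 2) ^ (s + 1) := one_le_pow₀ c1.le
  refine le_trans ?_ ((E_of_N (TS.sh_tri h.cl sz.toOk) hy.tw_tri (sm.mas _ _ sz) m2 hN H.le
    (by linarith) τ0.le (by linarith)).trans_eq (congrArg _ (funext fun y =>
      (prod_congr rfl fun e k => ?_).trans (prod_om i _))))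
  · refine (pow_le_pow_left₀ (by linarith) (show _ ≤ c0 * (1 - 2 * τ) by nlinarith) _).trans ?_
    rw [mul_pow]
    exact mul_le_mul_of_nonneg_left (pow_le_of_le_one (by linarith) (by linarith) (by positivity))
      (by linarith)
  · rw [← tf_xo i k]
    exact fA_res ok A α (he y _)

end Crest.Agent.N49.En

end
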