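import Crest.Agent.N49.En.Defs
import Crest.Agent.N49.Un.Defs
import Crest.Agent.N49.Br.Vis

/-!
# Row 49 (helper20): the first step reaches a twisted law with visible points (statement)
-/

set_option autoImplicit false

open Matrix Finset Nat

noncomputable section

namespace Crest.Agent.N49.En

open Po Tw Br

/-- **the first step** -/
def L1 : Prop := ∀ s : ℕ, 1 ≤ s → ∃ (c η : ℝ) (a j : ℕ), 1 < c ∧ 0 < η ∧ η ≤ 1 ∧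
  ∀ (C m q n : ℕ) (V : Ctr) (A : Finset ℕ) (lam α τ b : ℝ), MAST s C → PTMT s C → Even q →
  j * m ≤ q → V.Ok s → Top.Free (s + 2) A → 1 / 2 ^ m ≤ α → (1 - η) * α ≤ V.den (Top.zs A) →
  0 < lam → lam ≤ 1 → (1 + lam ^ 2 * (s + 2) ^ 3) ^ (s * Fintype.card V.T.C) ≤ 1 + η →
  0 < τ → τ ≤ 1 / 2 ^ (a + m + 12 * (q + 2) ^ (s + 3)) → ((s + 3) * (q + 2) + 1) ^ s ≤ n →
  V.T.RgS V.T.lev s C n b τ → b ≤ (lam / (s + 2)!) ^ (2 * s) →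
  4 * 2 ^ (m * (s + 2)) * V.g1 *
    (lam⁻¹ ^ (s * Fintype.card V.T.C) * ∏ l ∈ Icc 1 s, V.T.ct l) ^ (n + 2) < 1 →
  ∃ (τ1 : Type) (S : Sh Unit τ1) (χ : Pt (Fin (s + 1)) → S.W → ℤ) (Ψ : V.T.Twd S)
    (x : Pt (Fin (s + 1)) → ℤ), S.Sz n ((lam / (s + 2)!) ^ (2 * s)) ∧ V.T.Adm S V.T.lev Ψ ∧
    Un.Vm S χ (vis s (fun _ => q + 2) 1) cv (pts fun _ => q + 2) n ∧
    c ^ (q + 2) ^ (s + 1) ≤ Un.EP V.T S Ψ χ (pts fun _ => q + 2)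
      fun ω => Top.fA ⟨V.T, ((s + 2)! : ℤ) • V.π, x ω⟩ A α

end Crest.Agent.N49.En

end
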