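import Crest.Agent.N49.En.L0
import Crest.Agent.N49.Tw.ConH
import Crest.Agent.N49.Tw.Ap2
import Crest.Agent.N49.Tw.Chg
import Crest.Agent.N49.Rf.Nar

/-!
# Row 49 (helper91): the means of the points of a progression
-/

set_option autoImplicit false
set_option linter.unusedSectionVars false

open Matrix Finset

noncomputable section

namespace Crest.Agent.N49.En

open Po Tw

namespace Mn1

variable {σ : Type}

/-- wider laws have larger weights -/
theorem wt_shr {T : TS σ} (h : T.Tri) {κ : ℕ → ℝ} (h1 : ∀ l, 1 ≤ κ l) (y : T.C → ℤ) :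
    T.wt y ≤ (T.shr κ).wt y := by
  have k0 : ∀ l, κ l ≠ 0 := fun l => (one_pos.trans_le (h1 l)).ne'
  have p := (h.setK h.pd.inv (blk_inv h.blk_K)).shr_psd (κ := fun l => (κ l)⁻¹)
    fun l => pow_le_one₀ (inv_nonneg.2 (zero_le_one.trans (h1 l))) (inv_le_one_of_one_le₀ (h1 l))
  have e : (T.shr κ).K⁻¹ =
      Matrix.of fun c c' : T.C => (κ (T.lev c))⁻¹ * T.K⁻¹ c c' * (κ (T.lev c'))⁻¹ := by
    have a : (diagonal fun c : T.C => κ (T.lev c))⁻¹ = diagonal fun c => (κ (T.lev c))⁻¹ :=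
      inv_eq_right_inv (by simp [diagonal_mul_diagonal, k0])
    refine (congrArg (·⁻¹) (T.shr_K κ)).trans ?_
    show ((diagonal fun c : T.C => κ (T.lev c)) * T.K * diagonal fun c : T.C => κ (T.lev c))⁻¹ = _
    rw [Matrix.mul_inv_rev, Matrix.mul_inv_rev, a, ← Matrix.mul_assoc]
    ext c c'
    rw [mul_diagonal, diagonal_mul]; rfl
  have q := p.dotProduct_mulVec_nonneg (T.u (zc y))
  refine Real.exp_le_exp.2 (neg_le_neg (mul_le_mul_of_nonneg_left ?_ Real.pi_pos.le))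
  rw [e]
  change 0 ≤ T.u (zc y) ⬝ᵥ (T.K⁻¹ - Matrix.of fun c c' : T.C =>
    (κ (T.lev c))⁻¹ * T.K⁻¹ c c' * (κ (T.lev c'))⁻¹) *ᵥ T.u (zc y) at q
  rw [sub_mulVec, dotProduct_sub] at q
  exact sub_nonneg.1 q

theorem Zc_shr (T : TS σ) {κ : ℕ → ℝ} (h0 : ∀ l, 0 ≤ κ l) :
    (T.shr κ).Zc = (∏ c, κ (T.lev c)) * T.Zc := by
  have e : (T.shr κ).D.det = (∏ c, κ (T.lev c)) ^ 2 * T.D.det := by
    refine (congrArg Matrix.det (T.shr_D κ)).trans ?_
    show ((diagonal fun c : T.C => κ (T.lev c)) * T.D * diagonal fun c : T.C => κ (T.lev c)).det = _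
    rw [det_mul, det_mul, det_diagonal]; ring
  unfold TS.Zc
  rw [dt_inv, dt_inv, dt, dt, inv_inv, inv_inv, e, Real.sqrt_mul (sq_nonneg _),
    Real.sqrt_sq (prod_nonneg fun _ _ => h0 _)]

theorem shr_congr (T : TS σ) {κ κ' : ℕ → ℝ} (h : ∀ c, κ (T.lev c) = κ' (T.lev c)) :
    T.shr κ = T.shr κ' := by
  unfold TS.shr
  congr 1
  ext c c'
  simp [h]

theorem shr_one (T : TS σ) : T.shr (fun _ => 1) = T := by
  obtain ⟨C, d, Φ, K⟩ := T
  simp only [TS.shr, TS.setK, one_mul, mul_one]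
  rfl

/-- the shape with one letter -/
abbrev S1 (s : ℕ) (κ : ℕ → ℝ) : Sh Unit Unit :=
  Sh.mono (fun _ => ()) (full Unit s) (fun _ => 1) (dk fun μ => κ μ.degree ^ 2)

/-- its coordinates -/
def e1 {T : TS Unit} (h : T.Tri) {s : ℕ} (hs : ∀ F, T.lev F ≤ s) (κ : ℕ → ℝ) :
    T.Cw (S1 s κ) ≃ T.C where
  toFun p := p.1.1
  invFun F := ⟨(F, ⟨T.deg F, mem_erase.2 ⟨h.ne F, mem_full.2 (hs F)⟩⟩),
    unit_ext (Sh.cd_degree _)⟩
  left_inv p := Subtype.ext (Prod.ext rfl (Subtype.ext (unit_ext (TS.lev_cw p))))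
  right_inv _ := rfl

/-- **the Master estimate for the point tower and its widenings** -/
theorem mas_shr {T : TS Unit} {s n : ℕ} {a τ : ℝ} (h : T.Tri) (h1 : 1 ≤ s) (hs : ∀ F, T.lev F ≤ s)
    (m : Sm T s n a τ) (hn : s + 1 ≤ n) (ha : 0 < a) {κ : ℕ → ℝ} (h0 : ∀ l, 0 < κ l)
    (hκ : ∀ l, a ≤ κ l ^ 2) : (T.shr κ).Mas τ := by
  have z : (S1 s κ).Sz n a := L0k.msz _ dn_full (card_full.trans (by simpa using hn)) ha
    fun μ _ => hκ _
  have pt : (S1 s κ).Pt s fun w => w.1.prod fun _ k => (1 : ℤ) ^ k :=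
    Sh.mono_pt (t := fun _ => 1) h1 (fun μ k _ => mem_full.2 k) (by simp)
  have fl : ∀ F, (univ.filter fun p : T.Cw (S1 s κ) => p.1.1 = F) = {(e1 h hs κ).symm F} := by
    intro F
    ext p
    rw [mem_filter, mem_singleton, Equiv.eq_symm_apply]
    exact and_iff_right (mem_univ _)
  refine ((TS.Iso.of_equiv (T := T.shr κ) (T' := T.sh (S1 s κ)) (h.shr fun l => (h0 l).ne')
    (TS.sh_tri h.cl z.toOk) (e1 h hs κ) (fun p => TS.sh_lev p) (fun y p => ?_)
    fun p p' => ?_).mas τ).2 (m.mas _ _ z)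
  · have := TS.u_pw h z.toOk pt (y ∘ e1 h hs κ) (hs (e1 h hs κ p))
    rw [fl, sum_singleton, Equiv.symm_apply_apply] at this
    have e : T.pw (S1 s κ) (fun w => w.1.prod fun _ k => (1 : ℤ) ^ k) (y ∘ e1 h hs κ) = y := by
      funext F
      unfold TS.pw
      rw [fl, sum_singleton]
      simp [Finsupp.prod]
    rw [e] at this
    refine Eq.trans ?_ this.symm
    simp [Finsupp.prod]
    rfl
  · show T.K p.1.1 p'.1.1 * dk (fun μ => κ μ.degree ^ 2) p.1.2.1 p'.1.2.1 =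
      κ (T.lev p.1.1) * T.K p.1.1 p'.1.1 * κ (T.lev p'.1.1)
    have a1 : T.lev p.1.1 = p.1.2.1.degree := TS.lev_cw p
    have a2 : T.lev p'.1.1 = p'.1.2.1.degree := TS.lev_cw p'
    by_cases e : T.lev p.1.1 = T.lev p'.1.1
    · rw [dk, if_pos (unit_ext (a1.symm.trans (e.trans a2))), ← a1, ← e]; ring
    · rw [h.blk_K _ _ e]; ring

/-- comparison of a tower with a slightly wider one -/
theorem E_shr {T : TS σ} (h : T.Tri) {κ : ℕ → ℝ} (h1 : ∀ l, 1 ≤ κ l) {τ η : ℝ} (h0 : 0 ≤ τ)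
    (hη : 0 ≤ η) (m : T.Mas τ) (m' : (T.shr κ).Mas τ) (hp : ∏ c, κ (T.lev c) ≤ 1 + η)
    {f : (T.C → ℤ) → ℝ} (f0 : ∀ y, 0 ≤ f y) (fb : Bb f) :
    T.E f * (1 - 2 * τ - η) ≤ (T.shr κ).E f := by
  have h' : (T.shr κ).Tri := h.shr fun l => (one_pos.trans_le (h1 l)).ne'
  rcases le_total (1 - 2 * τ - η) 0 with k | k
  · exact (mul_nonpos_of_nonneg_of_nonpos (TS.E_nonneg f0) k).trans (TS.E_nonneg (T := T.shr κ) f0)
  have s : T.S f ≤ (T.shr κ).S f := (h.sm fb).tsum_le_tsum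
    (fun y => mul_le_mul_of_nonneg_right (wt_shr h h1 y) (f0 y)) (h'.sm fb)
  have s0 : 0 ≤ T.S f := TS.S_nonneg f0
  have zc := h.Zc_pos
  have a1 : (1 - τ) * T.Zc ≤ T.Z := by linarith [(abs_le.1 m).1]
  have a2 : (T.shr κ).Z ≤ (1 + τ) * ((1 + η) * T.Zc) := by
    have := (abs_le.1 m').2
    rw [Zc_shr T fun l => zero_le_one.trans (h1 l)] at this
    have := mul_le_mul_of_nonneg_left (mul_le_mul_of_nonneg_right hp zc.le) (by linarith : 0 ≤ 1 + τ)
    linarith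
  have a3 : (1 - 2 * τ - η) * (T.shr κ).Z ≤ T.Z := by
    refine (mul_le_mul_of_nonneg_left a2 k).trans (le_trans ?_ a1)
    rw [← mul_assoc, ← mul_assoc]
    refine mul_le_mul_of_nonneg_right ?_ zc.le
    nlinarith [mul_nonneg h0 hη, mul_nonneg h0 h0, mul_nonneg hη hη, mul_nonneg (mul_nonneg h0 hη) hη,
      mul_nonneg (mul_nonneg h0 h0) hη]
  unfold TS.E
  rw [div_mul_eq_mul_div, div_le_div_iff₀ h.Z_pos h'.Z_pos, mul_assoc]
  exact mul_le_mul s a3 (mul_nonneg k h'.Z_pos.le) (s0.trans s)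

theorem abs_aT {k : ℕ} (i : Option (Fin k)) (j : Fin k) : |aT k i (some j)| ≤ k := by
  show |(j : ℤ) - (i.elim 0 Fin.val : ℕ)| ≤ k
  have : (i.elim 0 Fin.val : ℕ) ≤ k := by cases i <;> simp
  have := j.2
  rw [abs_le]; omega

theorem term {k : ℕ} (i : Option (Fin k)) (lam : ℝ) (μ : Option (Fin k) →₀ ℕ) :
    aV k lam μ * ((μ.prod fun a n => aT k i a ^ n : ℤ) : ℝ) ^ 2 =
      ∏ o, o.elim 1 (fun j => lam ^ 2 * (aT k i (some j) : ℝ) ^ 2) ^ μ o := by
  rw [Finsupp.prod_fintype _ _ fun _ => pow_zero _, aV, Finsupp.degree_eq_sum, Fintype.sum_option,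
    Nat.add_sub_cancel_left, Fintype.prod_option, Fintype.prod_option, pow_mul, ← prod_pow_eq_pow_sum]
  have : aT k i none = 1 := rfl
  simp only [this, Option.elim, one_pow, one_mul, Int.cast_prod, Int.cast_pow, mul_pow,
    prod_mul_distrib, ← prod_pow, ← pow_mul, mul_comm]

theorem sum_le {τ : Type} [Fintype τ] [DecidableEq τ] {W : Finset (τ →₀ ℕ)} {x : τ → ℝ}
    (h : ∀ a, 0 ≤ x a) (l : ℕ) :
    ∑ w : Sh.MW W with w.1.degree = l, ∏ a, x a ^ w.1 a ≤ (∑ a, x a) ^ l := by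
  rw [sum_pow_eq_sum_piAntidiag, ← sum_image (g := fun w : Sh.MW W => (w.1 : τ → ℕ))
    (f := fun μ => ∏ a, x a ^ μ a) fun _ _ _ _ e => Subtype.ext (DFunLike.coe_injective e)]
  refine (sum_le_sum_of_subset_of_nonneg (t := piAntidiag univ l) (fun μ hμ => ?_)
    fun _ _ _ => prod_nonneg fun a _ => pow_nonneg (h a) _).trans (sum_le_sum fun μ _ => ?_)
  · obtain ⟨w, hw, rfl⟩ := mem_image.1 hμ
    rw [mem_piAntidiag, ← Finsupp.degree_eq_sum]
    exact ⟨(mem_filter.1 hw).2, fun _ _ => mem_univ _⟩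
  · exact le_mul_of_one_le_left (prod_nonneg fun a _ => pow_nonneg (h a) _)
      (by exact_mod_cast Nat.multinomial_pos _ _)

theorem qf_dk {τ : Type} [DecidableEq τ] {W : Finset (τ →₀ ℕ)} (ε : τ → ℤ) (v : (τ →₀ ℕ) → ℝ)
    (x : Sh.MW W → ℝ) :
    qf (Sh.mono (fun _ => ()) W ε (dk v)).K x = ∑ w : Sh.MW W, v w.1 * x w ^ 2 := by
  show ∑ w : Sh.MW W, x w * ∑ w' : Sh.MW W, dk v w.1 w'.1 * x w' = _
  refine sum_congr rfl fun w _ => ?_
  simp only [dk, Subtype.coe_inj, ite_mul, zero_mul, sum_ite_eq, mem_univ, if_true]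
  ring

end Mn1

open Mn1 in
theorem mean : MEAN := by
  intro k s n T lam a τ η B f i h1 h hs m hk hn ha hal h0 hl f0 fB hτ hη hp
  set S := Sh.mono (fun _ => ()) (full (Option (Fin k)) s) (aE k) (dk (aV k lam)) with hS
  have z : S.Sz n a := L0k.msz _ dn_full ((L0k.card_full' s).trans (by simpa using hk)) ha
    fun μ hμ => hal.trans (L0k.le_aV h0 hl hμ)
  have pt : S.Pt s (chi S (aT k i)) :=
    Sh.mono_pt h1 (fun μ k _ => mem_full.2 k) (by simp [aE, aT])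
  have w0 : ∀ j ∈ Icc 1 s, Finsupp.single none j ∈ (full (Option (Fin k)) s).erase 0 := fun j hj =>
    mem_erase.2 ⟨by have := (mem_Icc.1 hj).1; simp; omega, mem_full.2 (by simpa using (mem_Icc.1 hj).2)⟩
  have c0 : ∀ j hj, chi S (aT k i) ⟨_, w0 j hj⟩ = 1 := fun j hj => by
    show (Finsupp.single none j).prod (fun a n => aT k i a ^ n) = 1
    simp [aT]
  have hχ : ∀ w, |chi S (aT k i) w| ≤ n := fun w => by
    show |w.1.prod fun a n => aT k i a ^ n| ≤ n
    have t : ∀ o, |aT k i o| ≤ k + 2 := fun o => by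
      cases o with
      | none => show |(1 : ℤ)| ≤ _; simp; omega
      | some j => exact (abs_aT i j).trans (by omega)
    rw [Finsupp.prod_fintype _ _ fun _ => pow_zero _, abs_prod]
    refine (prod_le_prod (g := fun o => ((k : ℤ) + 2) ^ w.1 o) (fun _ _ => abs_nonneg _)
      fun o _ => by rw [abs_pow]; exact pow_le_pow_left₀ (abs_nonneg _) (t o) _).trans ?_
    rw [prod_pow_eq_pow_sum, ← Finsupp.degree_eq_sum]
    exact (pow_le_pow_right₀ (by omega) (mem_full.1 (Sh.MW.mem w))).trans (by exact_mod_cast hk)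
  have P := (m.ptm _ S _ z pt hχ fun j hj => ⟨⟨_, w0 j hj⟩, Finsupp.degree_single _ _, c0 j hj⟩)
  set g : ℕ → ℝ := fun l => qf S.K fun w => if S.dg w = l then (chi S (aT k i) w : ℝ) else 0 with hg
  have ge : ∀ l, g l = ∑ w : Sh.MW (full (Option (Fin k)) s) with w.1.degree = l,
      aV k lam w.1 * (chi S (aT k i) w : ℝ) ^ 2 := fun l => by
    refine (qf_dk _ _ _).trans ?_
    rw [sum_filter]
    refine sum_congr rfl fun w _ => ?_
    show aV k lam w.1 * (if w.1.degree = l then _ else 0) ^ 2 = _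
    split_ifs <;> simp
  have g1 : ∀ l ∈ Icc 1 s, 1 ≤ g l := fun l hl => by
    rw [ge]
    refine le_trans (le_of_eq ?_) (single_le_sum
      (f := fun w : Sh.MW (full (Option (Fin k)) s) => aV k lam w.1 * (chi S (aT k i) w : ℝ) ^ 2)
      (fun w _ => mul_nonneg (pow_nonneg h0.le _) (sq_nonneg _)) (a := ⟨_, w0 l hl⟩)
      (mem_filter.2 ⟨mem_univ _, Finsupp.degree_single _ _⟩))
    rw [c0 l hl]
    simp [aV]
  have b1 : (1 : ℝ) ≤ 1 + lam ^ 2 * k ^ 3 := le_add_of_nonneg_right (by positivity)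
  have g2 : ∀ l ≤ s, g l ≤ (1 + lam ^ 2 * k ^ 3) ^ s := fun l hl => by
    rw [ge, sum_congr rfl fun w _ => term i lam w.1]
    have x0 : ∀ o : Option (Fin k),
        0 ≤ o.elim 1 fun j => lam ^ 2 * (aT k i (some j) : ℝ) ^ 2 := fun o => by
      cases o <;> simp only [Option.elim] <;> positivity
    refine (sum_le x0 l).trans ((pow_le_pow_left₀ (sum_nonneg fun o _ => x0 o) ?_ l).trans
      (pow_le_pow_right₀ b1 hl))
    rw [Fintype.sum_option]
    refine add_le_add le_rfl ((sum_le_card_nsmul _ _ (lam ^ 2 * k ^ 2) fun j _ => ?_).trans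
      (le_of_eq (by simp; ring)))
    refine mul_le_mul_of_nonneg_left ?_ (sq_nonneg _)
    rw [← sq_abs]
    exact pow_le_pow_left₀ (abs_nonneg _) (by exact_mod_cast abs_aT i j) _
  set κ : ℕ → ℝ := fun l => max 1 √(g l) with hκ
  have k1 : ∀ l, 1 ≤ κ l := fun l => le_max_left _ _
  have a1 : a ≤ 1 := hal.trans (pow_le_one₀ h0.le hl)
  have e : ∀ c, √(g (T.lev c)) = κ (T.lev c) := fun c =>
    (max_eq_right (Real.one_le_sqrt.2 (g1 _ (mem_Icc.2 ⟨h.lev_pos c, hs c⟩)))).symm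
  have m0 : T.Mas τ := by
    have := mas_shr h h1 hs m hn ha (κ := fun _ => 1) (fun _ => one_pos) fun _ => by simpa using a1
    rwa [shr_one] at this
  have m1 := mas_shr h h1 hs m hn ha (fun l => one_pos.trans_le (k1 l))
    fun l => a1.trans (one_le_pow₀ (k1 l))
  have hp' : ∏ c, κ (T.lev c) ≤ 1 + η := by
    refine (prod_le_prod (g := fun _ => (1 + lam ^ 2 * k ^ 3) ^ s)
      (fun c _ => zero_le_one.trans (k1 _)) fun c _ => ?_).trans
      (by rwa [prod_const, ← pow_mul, card_univ])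
    refine max_le (one_le_pow₀ b1) (Real.sqrt_le_iff.2 ⟨by positivity, (g2 _ (hs c)).trans ?_⟩)
    exact le_self_pow₀ (one_le_pow₀ b1) two_ne_zero
  have r := E_shr h k1 hτ hη m0 m1 hp' f0 (Bb.of_mem f0 fB)
  have r2 := P.E (g := f) (B := B) fun y => by rw [abs_of_nonneg (f0 y)]; exact fB y
  have r3 := (eqv_mono (col := fun _ => ()) (ε := aE k) (Kw := dk (aV k lam)) h
    (dn_full (τ := Option (Fin k)) (s := s))).E fun y => f (T.pw S (chi S (aT k i)) y)
  have r5 : (fun y => f (T.pw S (chi S (aT k i)) (mC _ _ (aE k) (dk (aV k lam)) h y))) =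
      fun y => f (aP T k s lam i y) := funext fun y => congrArg f (pw_mono h y _)
  replace r3 : (aL T k s lam).E (fun y => f (aP T k s lam i y)) =
      (T.sh S).E fun y => f (T.pw S (chi S (aT k i)) y) :=
    (congrArg (aL T k s lam).E r5.symm).trans r3
  have r4 : (T.shr fun l => √(g l)).E f = (T.shr κ).E f := by
    unfold TS.E TS.S TS.Z TS.wt
    rw [show (T.shr fun l => √(g l)).K = (T.shr κ).K from Matrix.ext fun c c' => by
      show √(g _) * _ * √(g _) = κ _ * _ * κ _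
      rw [e, e]]
    rfl
  refine le_trans ?_ (le_of_eq r3.symm)
  have := (abs_le.1 r2).1
  change -(B * τ) ≤ _ - (T.shr fun l => √(g l)).E f at this
  linarith

end Crest.Agent.N49.En

end
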