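import Crest.Agent.N49.En.L0
import Crest.Agent.N49.Rf.Nar
import Crest.Agent.N49.Tw.Ap2
import Crest.Agent.N49.Ir.Fib

/-!
# Row 49 (helper82): the means along the progression
-/

set_option autoImplicit false

open Matrix Finset

noncomputable section

namespace Crest.Agent.N49.En

open Po Tw

namespace Mn2

section wide
variable {σ : Type} {T : TS σ} {κ : ℕ → ℝ}

theorem wt_le (h : T.Tri) (h1 : ∀ l, 1 ≤ κ l) (y : T.C → ℤ) : T.wt y ≤ (T.shr κ).wt y := by
  have t := h.shr (κ := κ) fun l => (zero_lt_one.trans_le (h1 l)).ne'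
  have p := h.pd.posSemidef.conjTranspose_mul_mul_same
    (diagonal fun c => √(κ (T.lev c) ^ 2 - 1))
  have e : (Matrix.of fun c c' => κ (T.lev c) * T.K c c' * κ (T.lev c') : Matrix T.C T.C ℝ) =
      T.K + (diagonal fun c => √(κ (T.lev c) ^ 2 - 1))ᴴ * T.K *
        diagonal fun c => √(κ (T.lev c) ^ 2 - 1) := by
    ext c c'
    rw [Matrix.add_apply, conjTranspose_eq_transpose_of_trivial, diagonal_transpose, mul_diagonal,
      diagonal_mul, of_apply]
    by_cases e : T.lev c = T.lev c'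
    · rw [← e, mul_right_comm _ _ (√_), Real.mul_self_sqrt (sub_nonneg.2 (one_le_pow₀ (h1 _)))]
      ring
    · simp [h.blk_K c c' e]
  have q : ∀ x, qf T.K x ≤ qf (Matrix.of fun c c' => κ (T.lev c) * T.K c c' * κ (T.lev c') :
      Matrix T.C T.C ℝ) x := fun x => by
    rw [e, qf_add_left]
    exact le_add_of_nonneg_right (by simpa [qf] using p.dotProduct_mulVec_nonneg x)
  exact Real.exp_le_exp.2 (neg_le_neg (mul_le_mul_of_nonneg_left
    (Ir.inv_anti h.pd t.pd q _) Real.pi_pos.le))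

theorem Zc_shr (h0 : ∀ l, 0 ≤ κ l) : (T.shr κ).Zc = (∏ c, κ (T.lev c)) * T.Zc := by
  have p : 0 ≤ ∏ c, κ (T.lev c) := prod_nonneg fun _ _ => h0 _
  have e : (T.shr κ).Zc = dt (diagonal (fun c => κ (T.lev c)) * T.D *
      diagonal fun c => κ (T.lev c))⁻¹ := congrArg (fun M : Matrix T.C T.C ℝ => dt M⁻¹) (T.shr_D κ)
  rw [e, TS.Zc, dt_inv, dt_inv, dt, dt, inv_inv, inv_inv, det_mul, det_mul, det_diagonal,
    mul_right_comm, Real.sqrt_mul (mul_nonneg p p), Real.sqrt_mul_self p]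

/-- widening costs little -/
theorem E_shr (h : T.Tri) (h1 : ∀ l, 1 ≤ κ l) {τ η : ℝ} (m : T.Mas τ) (m' : (T.shr κ).Mas τ)
    (hη : ∏ c, κ (T.lev c) ≤ 1 + η) (τ0 : 0 ≤ τ) (η0 : 0 ≤ η) {f : (T.C → ℤ) → ℝ}
    (f0 : ∀ y, 0 ≤ f y) (hf : Bb f) : T.E f * (1 - 2 * τ - η) ≤ (T.shr κ).E f := by
  have t := h.shr (κ := κ) fun l => (zero_lt_one.trans_le (h1 l)).ne'
  have e0 : 0 ≤ (T.shr κ).E f := TS.E_nonneg f0
  have e1 : 0 ≤ T.E f := TS.E_nonneg f0
  rcases le_total (1 - 2 * τ - η) 0 with z | z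
  · exact (mul_nonpos_of_nonneg_of_nonpos e1 z).trans e0
  have s : T.S f ≤ (T.shr κ).S f := (h.sm hf).tsum_le_tsum
    (fun y => mul_le_mul_of_nonneg_right (wt_le h h1 y) (f0 y)) (t.sm hf)
  have s0 : 0 ≤ T.S f := TS.S_nonneg f0
  have zc := h.Zc_pos
  have a := (abs_le.1 m).1
  have b := (abs_le.1 m').2
  have c : (T.shr κ).Zc ≤ (1 + η) * T.Zc := by
    rw [Zc_shr fun l => zero_le_one.trans (h1 l)]
    exact mul_le_mul_of_nonneg_right hη zc.le
  have d : (T.shr κ).Z ≤ (1 + τ) * ((1 + η) * T.Zc) :=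
    le_trans (by linarith) (mul_le_mul_of_nonneg_left c (show 0 ≤ 1 + τ by linarith))
  have k : (1 - 2 * τ - η) * ((1 + τ) * (1 + η)) ≤ 1 - τ := by
    nlinarith [mul_nonneg τ0 η0, mul_nonneg τ0 τ0, mul_nonneg η0 η0, mul_nonneg (mul_nonneg τ0 η0) τ0,
      mul_nonneg (mul_nonneg τ0 η0) η0]
  have g : (1 - 2 * τ - η) * (T.shr κ).Z ≤ T.Z := by
    have := mul_le_mul_of_nonneg_left d z
    have := mul_le_mul_of_nonneg_right k zc.le
    nlinarith
  rw [TS.E, TS.E, div_mul_eq_mul_div, div_le_div_iff₀ h.Z_pos t.Z_pos, mul_assoc]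
  exact mul_le_mul s g (mul_nonneg z t.Z_pos.le) (s0.trans s)

end wide

section pts
variable {τ : Type} [Fintype τ] [DecidableEq τ] {s : ℕ} {ε : τ → ℤ}
  {Kw : (τ →₀ ℕ) → (τ →₀ ℕ) → ℝ}

theorem chi_eq (t : τ → ℤ) (w : Sh.MW (full τ s)) :
    chi (Sh.mono (fun _ => ()) (full τ s) ε Kw) t w = ∏ a, t a ^ w.1 a :=
  Finsupp.prod_fintype _ _ fun _ => pow_zero _

/-- points of the full monomial shape -/
theorem mono_pt (hs : 1 ≤ s) {t : τ → ℤ} (h : ∑ a, ε a * t a = 1) :
    (Sh.mono (fun _ => ()) (full τ s) ε Kw).Pt s (chi _ t) where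
  mul m h0 hm := by
    have d : (Finsupp.weight Subtype.val m).degree ≤ s :=
      (weight_hom Finsupp.degree Subtype.val m).symm.le.trans hm
    have e := Sh.sum_nfm (col := fun _ => ()) (nf := some) (ε := ε) (Kw := Kw) (m := m)
      (w := ⟨_, mem_erase.2 ⟨Sh.weight_ne h0, Tw.mem_full.2 d⟩⟩) rfl
      (chi (Sh.mono (fun _ => ()) (full τ s) ε Kw) t)
    refine Eq.trans ?_ (e.symm.trans (sum_congr rfl fun w _ => ?_))
    · rw [chi_eq, Finsupp.prod]
      simp only [chi_eq, Finsupp.weight_apply, Finsupp.sum, Finsupp.finsetSum_apply,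
        Finsupp.smul_apply, smul_eq_mul, ← prod_pow_eq_pow_sum, ← prod_pow, ← pow_mul, mul_comm]
      exact prod_comm
    · rw [mul_comm, Sh.nfm_r, Sh.mono_r]
      simp only [Option.some.injEq]
  mass := by
    have m : ∀ a, Finsupp.single a 1 ∈ (full τ s).erase 0 := fun a => mem_erase.2
      ⟨by simp, Tw.mem_full.2 (by rwa [Finsupp.degree_single])⟩
    rw [← h]
    refine (Fintype.sum_of_injective (fun a => (⟨_, m a⟩ : Sh.MW (full τ s)))
      (fun a b e => Finsupp.single_left_injective one_ne_zero (congrArg Subtype.val e)) _ _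
      (fun w hw => ?_) fun a => ?_).symm
    · refine mul_eq_zero_of_left (by_contra fun z => hw ?_) _
      obtain ⟨a, e⟩ := Sh.mono_ε_ne z
      exact ⟨a, Subtype.ext e.symm⟩
    · rw [Sh.mono_ε_single]
      congr 1
      exact ((Finsupp.prod_single_index (h := fun a n => t a ^ n) (pow_zero _)).trans
        (pow_one _)).symm

theorem qf_dk (v : (τ →₀ ℕ) → ℝ) (x : Sh.MW (full τ s) → ℝ) :
    qf (Sh.mono (fun _ => ()) (full τ s) ε (dk v)).K x = ∑ w, v w.1 * x w ^ 2 := by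
  refine sum_congr rfl fun (w : Sh.MW (full τ s)) _ => ?_
  change x w * ∑ w' : Sh.MW (full τ s), dk v w.1 w'.1 * x w' = _
  rw [sum_eq_single w (fun w' _ e => by
    rw [dk, if_neg fun z => e (Subtype.ext z.symm), zero_mul]) (by simp), dk, if_pos rfl]
  ring

/-- complete symmetric sums are at most powers -/
theorem hs_le {x : τ → ℝ} (h : ∀ a, 0 ≤ x a) (l : ℕ) :
    ∑ w : Sh.MW (full τ s), (if w.1.degree = l then ∏ a, x a ^ w.1 a else 0) ≤ (∑ a, x a) ^ l := by
  have p : ∀ k : τ → ℕ, 0 ≤ ∏ a, x a ^ k a := fun k => prod_nonneg fun a _ => pow_nonneg (h a) _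
  rw [← sum_filter, sum_pow_eq_sum_piAntidiag, ← sum_image (g := fun w : Sh.MW (full τ s) =>
    (w.1 : τ → ℕ)) (f := fun k => ∏ a, x a ^ k a) fun a _ b _ e =>
      Subtype.ext (DFunLike.coe_injective e)]
  refine (sum_le_sum_of_subset_of_nonneg (t := piAntidiag univ l) (fun k hk => ?_)
    fun k _ _ => p k).trans (sum_le_sum fun k _ => le_mul_of_one_le_left (p k) ?_)
  · obtain ⟨w, hw, rfl⟩ := mem_image.1 hk
    refine mem_piAntidiag.2 ⟨?_, fun _ _ => mem_univ _⟩
    rw [← (mem_filter.1 hw).2, Finsupp.degree_eq_sum]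
  · exact_mod_cast Nat.multinomial_pos _ _

end pts

/-- the Master estimate of a widened tower -/
theorem mas_shr {T : TS Unit} {s n : ℕ} {a τ : ℝ} (h : T.Tri) (hs : 1 ≤ s) (hl : ∀ F, T.lev F ≤ s)
    (sm : Sm T s n a τ) (hn : s + 1 ≤ n) (ha : 0 < a) {κ : ℕ → ℝ} (hκ : ∀ l, a ≤ κ l ^ 2) :
    (T.shr κ).Mas τ := by
  have z : (Sh.mono (fun _ : Unit => ()) (full Unit s) 1 (dk fun μ => κ μ.degree ^ 2)).Sz n a :=
    L0k.msz _ dn_full (Tw.card_full.trans (by simpa using hn)) ha fun μ _ => hκ _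
  set S := Sh.mono (fun _ : Unit => ()) (full Unit s) 1 (dk fun μ => κ μ.degree ^ 2) with hS
  let e : T.C ≃ T.Cw S :=
    { toFun := fun F => ⟨(F, ⟨T.deg F, mem_erase.2 ⟨h.ne F, Tw.mem_full.2 (hl F)⟩⟩),
        unit_ext (degree_col _ _)⟩
      invFun := fun p => p.1.1
      left_inv := fun _ => rfl
      right_inv := fun p => Subtype.ext (Prod.ext rfl (Subtype.ext
        (unit_ext ((congrArg Finsupp.degree p.2).symm.trans (degree_col _ _))))) }
  have kw : ∀ B : Matrix T.C T.C ℝ, Rw.Blk T.lev B → (T.kw S B S.K).submatrix e e =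
      Matrix.of fun c c' => κ (T.lev c) * B c c' * κ (T.lev c') := fun B hB => by
    ext c c'
    change B c c' * dk (fun μ => κ μ.degree ^ 2) (T.deg c) (T.deg c') =
      κ (T.lev c) * B c c' * κ (T.lev c')
    by_cases k : T.lev c = T.lev c'
    · rw [dk, if_pos (unit_ext k), ← k, TS.lev]; ring
    · simp [hB c c' k]
  have pt : S.Pt s (chi S 1) := mono_pt hs (by simp)
  have c1 : ∀ w, chi S 1 w = 1 := fun w => (chi_eq 1 w).trans (by simp)
  have sm1 : ∀ {M : Type} [AddCommMonoid M] (F : T.C) (g : T.Cw S → M),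
      ∑ p : T.Cw S with p.1.1 = F, g p = g (e F) := fun F g =>
    sum_eq_single_of_mem _ (mem_filter.2 ⟨mem_univ _, rfl⟩) fun p hp k =>
      absurd ((e.apply_symm_apply p).symm.trans (congrArg e (mem_filter.1 hp).2)) k
  refine mas_of (T' := T.sh S) ?_ ?_ (sm.mas _ S z)
  · refine (TS.Eqv.Z (T := T.shr κ) (T' := T.sh S) (U := e.arrowCongr (Equiv.refl ℤ)) fun y => ?_)
    have e1 : T.pw S (chi S 1) (e.arrowCongr (Equiv.refl ℤ) y) = y := funext fun F => by
      rw [TS.pw, sm1, c1, one_mul]; simp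
    have e2 : (T.sh S).u (zc (e.arrowCongr (Equiv.refl ℤ) y)) ∘ e = T.u (zc y) := funext fun F => by
      have := TS.u_pw h z.toOk pt (e.arrowCongr (Equiv.refl ℤ) y) (hl F)
      rw [e1, sm1, c1, Int.cast_one, one_mul] at this
      exact this.symm
    refine (gs_rx e (T.kw S T.K S.K) _).symm.trans ?_
    rw [kw _ h.blk_K]
    exact congrArg _ e2
  · have e1 : (T.sh S).Zc = dt (T.kw S T.D S.K)⁻¹ :=
      congrArg (fun M : Matrix (T.Cw S) (T.Cw S) ℝ => dt M⁻¹) (TS.sh_D h.cl z.toOk)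
    have e2 : (T.shr κ).Zc = dt (diagonal (fun c => κ (T.lev c)) * T.D *
      diagonal fun c => κ (T.lev c))⁻¹ := congrArg (fun M : Matrix T.C T.C ℝ => dt M⁻¹) (T.shr_D κ)
    rw [e1, e2, ← dt_rx e, kw _ h.blk_D]
    congr 2
    ext c c'
    rw [mul_diagonal, diagonal_mul, of_apply]

end Mn2

open Mn2

theorem mean2 : MEAN := fun k s n T lam a τ η B f i hs h hl sm n1 n2 a0 al l0 l1 f0 fB τ0 η0 hη => by
  have z : (Sh.mono (fun _ => ()) (full (Option (Fin k)) s) (aE k) (dk (aV k lam))).Sz n a :=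
    L0k.msz _ dn_full ((L0k.card_full' s).trans (by simpa using n1)) a0 fun μ hμ =>
      al.trans (L0k.le_aV l0 l1 hμ)
  set S := Sh.mono (fun _ => ()) (full (Option (Fin k)) s) (aE k) (dk (aV k lam)) with hS
  have a1 : a ≤ 1 := al.trans (pow_le_one₀ l0.le l1)
  have tb : ∀ o, |aT k i o| ≤ k + 1 := fun o => by
    cases o with
    | none => simp [aT]
    | some j =>
      have := j.2
      cases i with
      | none => simp only [aT, Option.elim]; rw [abs_le]; omega
      | some i => have := i.2; simp only [aT, Option.elim]; rw [abs_le]; omega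
  have tb' : ∀ j : Fin k, (aT k i (some j) : ℝ) ^ 2 ≤ k ^ 2 := fun j => by
    have : |aT k i (some j)| ≤ k := by
      have := j.2
      cases i with
      | none => simp only [aT, Option.elim]; rw [abs_le]; omega
      | some i => have := i.2; simp only [aT, Option.elim]; rw [abs_le]; omega
    exact sq_le_sq.2 (by rw [Nat.abs_cast]; exact_mod_cast this)
  have w0 : ∀ j ∈ Icc 1 s, Finsupp.single none j ∈ (full (Option (Fin k)) s).erase 0 :=
    fun j hj => mem_erase.2 ⟨Finsupp.single_ne_zero.2 (by have := mem_Icc.1 hj; omega),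
      Tw.mem_full.2 (by rw [Finsupp.degree_single]; exact (mem_Icc.1 hj).2)⟩
  have c0 : ∀ j hj, chi S (aT k i) ⟨_, w0 j hj⟩ = 1 := fun j hj =>
    (Finsupp.prod_single_index (h := fun a n => aT k i a ^ n) (pow_zero _)).trans (one_pow _)
  have P := sm.ptm _ S (chi S (aT k i)) z (mono_pt hs (by simp [aE, aT])) (fun w => by
      rw [chi_eq, abs_prod]
      refine (prod_le_prod (fun _ _ => abs_nonneg _) fun o _ => (abs_pow _ _).le.trans
        (pow_le_pow_left₀ (abs_nonneg _) ((tb o).trans (by omega : (k : ℤ) + 1 ≤ k + 2)) _)).trans ?_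
      rw [prod_pow_eq_pow_sum, ← Finsupp.degree_eq_sum]
      exact (pow_le_pow_right₀ (by omega) (Tw.mem_full.1 (Sh.MW.mem w))).trans (by exact_mod_cast n1))
    fun j hj => ⟨⟨_, w0 j hj⟩, Finsupp.degree_single _ _, c0 j hj⟩
  set g : ℕ → ℝ := fun l => qf S.K fun w => if S.dg w = l then (chi S (aT k i) w : ℝ) else 0
    with hg
  have ge : ∀ l, g l = ∑ w : Sh.MW (full (Option (Fin k)) s), if w.1.degree = l then
      ∏ o, (o.elim 1 fun j => lam ^ 2 * (aT k i (some j) : ℝ) ^ 2) ^ w.1 o else 0 := fun l => by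
    refine (qf_dk _ _).trans (sum_congr rfl fun w _ => ?_)
    change aV k lam w.1 * (if w.1.degree = l then (chi S (aT k i) w : ℝ) else 0) ^ 2 = _
    split_ifs
    · rw [chi_eq, aV, Finsupp.degree_eq_sum, Fintype.sum_option, Nat.add_sub_cancel_left,
        Fintype.prod_option, Fintype.prod_option]
      simp only [Option.elim, mul_pow, prod_mul_distrib, prod_pow_eq_pow_sum, aT, one_pow, one_mul,
        ← pow_mul, Int.cast_prod, Int.cast_pow, ← prod_pow, mul_comm, mul_sum]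
    · simp
  have x0 : ∀ o : Option (Fin k), (0 : ℝ) ≤ o.elim 1 fun j => lam ^ 2 * (aT k i (some j) : ℝ) ^ 2 :=
    fun o => by cases o <;> simp only [Option.elim] <;> positivity
  have g1 : ∀ l ∈ Icc 1 s, 1 ≤ g l := fun l hl => by
    rw [ge]
    refine le_trans ?_ (single_le_sum (f := fun w : Sh.MW (full (Option (Fin k)) s) =>
      if w.1.degree = l then ∏ o, (o.elim (1 : ℝ) fun j => lam ^ 2 * (aT k i (some j) : ℝ) ^ 2) ^ w.1 o
      else 0) (fun w _ => by
        split_ifs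
        · exact prod_nonneg fun o _ => pow_nonneg (x0 o) _
        · exact le_rfl) (mem_univ ⟨_, w0 l hl⟩))
    simp [Fintype.prod_option, Finsupp.degree_single]
  have X1 : (1 : ℝ) ≤ 1 + lam ^ 2 * k ^ 3 := le_add_of_nonneg_right (by positivity)
  have g2 : ∀ l ≤ s, g l ≤ (1 + lam ^ 2 * k ^ 3) ^ s := fun l hl => by
    rw [ge]
    refine (hs_le x0 l).trans ((pow_le_pow_left₀ (sum_nonneg fun o _ => x0 o) ?_ _).trans
      (pow_le_pow_right₀ X1 hl))
    rw [Fintype.sum_option]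
    refine add_le_add le_rfl ((sum_le_card_nsmul _ _ (lam ^ 2 * k ^ 2) fun j _ =>
      mul_le_mul_of_nonneg_left (tb' j) (sq_nonneg _)).trans_eq ?_)
    rw [card_univ, Fintype.card_fin, nsmul_eq_mul]; ring
  have lv : ∀ c, T.lev c ∈ Icc 1 s := fun c => mem_Icc.2 ⟨h.lev_pos c, hl c⟩
  have mx : ∀ c, max (√(g (T.lev c))) 1 = √(g (T.lev c)) := fun c =>
    max_eq_left (Real.one_le_sqrt.2 (g1 _ (lv c)))
  have m0 : T.Mas τ := by
    have := mas_shr h hs hl sm n2 a0 (κ := fun _ => 1) fun _ => by simpa using a1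
    have e : (T.shr fun _ => 1) = T :=
      (congrArg T.setK (Matrix.ext fun c c' => by simp : _ = T.K)).trans rfl
    rwa [e] at this
  have E1 := E_shr h (κ := fun l => max (√(g l)) 1) (fun _ => le_max_right _ _) m0
    (mas_shr h hs hl sm n2 a0 fun _ => a1.trans (one_le_pow₀ (le_max_right _ _))) (η := η) (by
      refine (prod_le_prod (g := fun _ => (1 + lam ^ 2 * k ^ 3) ^ s)
        (fun _ _ => zero_le_one.trans (le_max_right _ _)) fun c _ => ?_).trans ?_
      · have := g1 _ (lv c)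
        rw [mx]
        exact (Real.sqrt_le_iff.2 ⟨by linarith, by nlinarith⟩).trans (g2 _ (hl c))
      · rwa [prod_const, ← pow_mul, card_univ]) τ0 η0 f0 (Bb.of_mem f0 fB)
  have E2 := (abs_le.1 (P.E (g := f) (B := B) fun y => (abs_of_nonneg (f0 y)).trans_le (fB y))).1
  have E3 : (aL T k s lam).E (fun y => f (aP T k s lam i y)) =
      (T.sh S).E fun y => f (T.pw S (chi S (aT k i)) y) := by
    refine Eq.trans (congrArg _ (funext fun y => ?_)) ((eqv_mono h dn_full).E _)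
    exact congrArg f (pw_mono h y _).symm
  have E4 : (T.shr fun l => √(g l)).E f = (T.shr fun l => max (√(g l)) 1).E f := by
    have : ∀ K K' : Matrix T.C T.C ℝ, K = K' → (T.setK K).E f = (T.setK K').E f :=
      fun _ _ e => e ▸ rfl
    exact this _ _ (Matrix.ext fun c c' => by simp only [of_apply, mx])
  rw [E3]
  linarith

end Crest.Agent.N49.En

end
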